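import Mathlib
import Vale.Agent.P165.Unique

/-!
Paths against walks: each step of a path may be decorated by a back-and-forth step, so that
paths grow slower than walks by a definite amount.
-/

namespace Vale.Agent.P165.Sus

open MeasureTheory Finset

variable {W : Type} {H : SimpleGraph W} [H.LocallyFinite] [DecidableEq W]

/-- The adjacency form is bounded by `c`. -/
def Form (H : SimpleGraph W) [H.LocallyFinite] (c : ℝ) : Prop :=
  ∀ S T : Finset W, Inside H S T → ∀ u : W → ℝ, (∀ x ∉ S, u x = 0) →
    |∑ x ∈ T, ∑ z ∈ T, adjW H x z * (u x * u z)| ≤ c * ∑ x ∈ T, u x ^ 2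

lemma walkCount_zero (x y : W) : walkCount H y 0 x = if x = y then 1 else 0 := by
  unfold walkCount
  by_cases h : x = y
  · subst h; simp [SimpleGraph.finsetWalkLength]
  · simp [SimpleGraph.finsetWalkLength, h]

lemma walkCount_nonneg (y : W) (n : ℕ) (x : W) : 0 ≤ walkCount H y n x := Nat.cast_nonneg _

lemma walkCount_comm (y : W) (n : ℕ) (x : W) : walkCount H y n x = walkCount H x n y := by
  unfold walkCount
  refine congrArg _ (card_bij' (fun q _ => q.reverse) (fun q _ => q.reverse) ?_ ?_ ?_ ?_) <;>
    simp [SimpleGraph.mem_finsetWalkLength_iff]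

/-- Splitting a walk after `i` steps. -/
lemma walkCount_add (y : W) (j : ℕ) : ∀ (i : ℕ) (x : W) (S : Finset W),
    (∀ z ∉ S, walkCount H z i x = 0) →
    walkCount H y (i + j) x = ∑ z ∈ S, walkCount H z i x * walkCount H y j z := by
  intro i
  induction i with
  | zero =>
    intro x S hS
    have hx : x ∈ S := by
      by_contra hx
      simpa [walkCount_zero] using hS x hx
    simp [walkCount_zero, Finset.sum_ite_eq, hx]
  | succ i ih =>
    intro x S hS
    rw [Nat.add_right_comm, walkCount_succ]
    have h0 : ∀ w ∈ H.neighborFinset x, ∀ z ∉ S, walkCount H z i w = 0 := fun w hw z hz =>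
      (sum_eq_zero_iff_of_nonneg fun v _ => walkCount_nonneg z i v).1
        (by rw [← walkCount_succ]; exact hS z hz) w hw
    rw [sum_congr rfl fun w hw => ih w S (h0 w hw), sum_comm]
    exact sum_congr rfl fun z _ => by rw [walkCount_succ, sum_mul]

lemma walkCount_support (y : W) (n : ℕ) :
    ∀ z ∉ near H y n, walkCount H y n z = 0 := by
  intro z hz
  unfold walkCount
  rw [Nat.cast_eq_zero, card_eq_zero, eq_empty_iff_forall_notMem]
  intro q hq
  exact hz (mem_near q.reverse (by rw [SimpleGraph.Walk.length_reverse,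
    SimpleGraph.mem_finsetWalkLength_iff.1 hq]))

lemma sum_walkCount_sq (y : W) (n : ℕ) {S : Finset W} (hS : ∀ z ∉ S, walkCount H y n z = 0) :
    ∑ z ∈ S, walkCount H y n z ^ 2 = walkCount H y (2 * n) y := by
  rw [two_mul, walkCount_add y n n y S fun z hz => by rw [walkCount_comm]; exact hS z hz]
  exact sum_congr rfl fun z _ => by rw [walkCount_comm z n y, sq]

/-- Cauchy-Schwarz for a split walk. -/
lemma walkCount_add_le (x y : W) (i j : ℕ) : walkCount H y (i + j) x ≤
    Real.sqrt (walkCount H x (2 * i) x) * Real.sqrt (walkCount H y (2 * j) y) := by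
  set S := near H x i ∪ near H y j with hSdef
  have hx : ∀ z ∉ S, walkCount H x i z = 0 := fun z hz =>
    walkCount_support x i z fun h => hz (mem_union_left _ h)
  have hy : ∀ z ∉ S, walkCount H y j z = 0 := fun z hz =>
    walkCount_support y j z fun h => hz (mem_union_right _ h)
  rw [walkCount_add y j i x S fun z hz => by rw [walkCount_comm]; exact hx z hz,
    ← sum_walkCount_sq x i hx, ← sum_walkCount_sq y j hy]
  refine le_trans (le_of_eq (sum_congr rfl fun z _ => by rw [walkCount_comm z i x])) ?_
  exact Real.sum_mul_le_sqrt_mul_sqrt _ _ _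

lemma walkCount_le_tail {c : ℝ} (hc : 0 ≤ c) (hf : Form H c) (y : W) (N m : ℕ) (x : W) :
    walkCount H y (N + m) x ≤ c ^ m * Real.sqrt (walkCount H y (2 * N) y) := by
  suffices ∃ S : Finset W, (∀ z ∉ S, walkCount H y (N + m) z = 0) ∧
      ∑ z ∈ S, walkCount H y (N + m) z ^ 2 ≤ (c ^ m) ^ 2 * walkCount H y (2 * N) y by
    obtain ⟨S, h0, hS⟩ := this
    by_cases hx : x ∈ S
    · have h1 := (Finset.single_le_sum (fun z _ => sq_nonneg (walkCount H y (N + m) z)) hx).trans hS
      rw [← Real.sq_sqrt (walkCount_nonneg y (2 * N) y), ← mul_pow] at h1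
      exact le_of_abs_le (abs_le_of_sq_le_sq h1 (by positivity))
    · rw [h0 x hx]; positivity
  induction m with
  | zero => exact ⟨_, walkCount_support y N, by simp [sum_walkCount_sq y N (walkCount_support y N)]⟩
  | succ m ih =>
    obtain ⟨S, h0, hS⟩ := ih
    refine ⟨S.biUnion (H.neighborFinset ·), fun z hz => ?_, ?_⟩
    · rw [← add_assoc, walkCount_succ]
      refine Finset.sum_eq_zero fun w hw => h0 w fun hwS => hz (mem_biUnion.2 ⟨w, hwS, ?_⟩)
      simpa [SimpleGraph.adj_comm] using hw
    · simp only [← add_assoc, walkCount_succ]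
      refine (norm_bound hc hf S _ h0).trans ?_
      calc c ^ 2 * ∑ z ∈ S, walkCount H y (N + m) z ^ 2
          ≤ c ^ 2 * ((c ^ m) ^ 2 * walkCount H y (2 * N) y) :=
            mul_le_mul_of_nonneg_left hS (sq_nonneg c)
        _ = _ := by ring

/-- The neighbours allowed after arriving from `u`. -/
def next (H : SimpleGraph W) [H.LocallyFinite] : Option W → W → Finset W
  | none, x => H.neighborFinset x
  | some u, x => (H.neighborFinset x).erase u

/-- Walks without immediate returns from `x` to `y`, not starting towards the marked vertex. -/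
def nbw (H : SimpleGraph W) [H.LocallyFinite] (y : W) : ℕ → Option W → W → ℝ
  | 0, _, x => if x = y then 1 else 0
  | n + 1, u, x => ∑ w ∈ next H u x, nbw H y n (some x) w

lemma nbw_nonneg (y : W) : ∀ n u x, 0 ≤ nbw H y n u x
  | 0, u, x => by unfold nbw; split <;> norm_num
  | n + 1, u, x => sum_nonneg fun w _ => nbw_nonneg y n _ w

lemma adj_nbw_ge {D : ℕ} (hreg : ∀ x, (H.neighborFinset x).card = D) (y : W) (n : ℕ) (x : W) :
    nbw H y (n + 2) none x + ((D : ℝ) - 1) * nbw H y n none x
      ≤ ∑ w ∈ H.neighborFinset x, nbw H y (n + 1) none w := by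
  have hsplit : ∀ w ∈ H.neighborFinset x, nbw H y (n + 1) none w
      = nbw H y (n + 1) (some x) w + nbw H y n (some w) x := fun w hw => by
    simp only [nbw, next]
    rw [sum_erase_add _ _ (by simpa [SimpleGraph.adj_comm] using hw)]
  rw [sum_congr rfl hsplit, sum_add_distrib]
  refine add_le_add (le_of_eq rfl) ?_
  cases n with
  | zero =>
    simp only [nbw, sum_const, hreg, nsmul_eq_mul]
    split <;> simp
  | succ m =>
    refine le_of_eq ?_
    simp only [nbw, next]
    rw [sum_congr rfl fun w hw => sum_erase_eq_sub hw, sum_sub_distrib, sum_const, hreg,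
      nsmul_eq_mul]
    ring

/-- Coefficients of the decoration of walks. -/
def deco (q : ℝ) : ℕ → ℕ → ℝ
  | 0, n => if n = 0 then 1 else 0
  | m + 1, n => (if n = 0 then 0 else deco q m (n - 1)) + q * deco q m (n + 1)

lemma deco_nonneg {q : ℝ} (hq : 0 ≤ q) : ∀ m n, 0 ≤ deco q m n
  | 0, n => by unfold deco; split <;> norm_num
  | m + 1, n => by
    have h1 := deco_nonneg hq m (n - 1)
    have h2 := deco_nonneg hq m (n + 1)
    unfold deco
    split <;> positivity

lemma deco_eq_zero (q : ℝ) : ∀ m n, m < n → deco q m n = 0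
  | 0, n, h => by simp [deco]; omega
  | m + 1, n, h => by
    rw [deco, deco_eq_zero q m (n + 1) (by omega), deco_eq_zero q m (n - 1) (by omega)]
    simp

lemma choose_le_deco {q : ℝ} (hq : 0 ≤ q) :
    ∀ m n j, n + 2 * j = m → (n.choose j : ℝ) * q ^ j ≤ deco q m n
  | 0, n, j, h => by
    obtain ⟨rfl, rfl⟩ : n = 0 ∧ j = 0 := by omega
    simp [deco]
  | m + 1, 0, j, h => by
    obtain ⟨i, rfl⟩ : ∃ i, j = i + 1 := ⟨j - 1, by omega⟩
    simpa using deco_nonneg hq (m + 1) 0
  | m + 1, n + 1, 0, h => by
    have h1 := choose_le_deco hq m n 0 (by omega)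
    simp only [Nat.choose_zero_right, Nat.cast_one, pow_zero, one_mul] at h1 ⊢
    rw [deco]
    simp only [Nat.add_eq_zero_iff, one_ne_zero, and_false, if_false, Nat.add_sub_cancel]
    nlinarith [deco_nonneg hq m (n + 2)]
  | m + 1, n + 1, i + 1, h => by
    have h1 := choose_le_deco hq m n (i + 1) (by omega)
    have h2 := choose_le_deco hq m (n + 2) i (by omega)
    rw [deco]
    simp only [Nat.add_eq_zero_iff, one_ne_zero, and_false, if_false, Nat.add_sub_cancel]
    have h3 : (n.choose i : ℝ) ≤ ((n + 2).choose i : ℝ) :=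
      Nat.cast_le.2 (Nat.choose_le_choose i (by omega))
    have h4 : (n.choose i : ℝ) * q ^ (i + 1) ≤ q * deco q m (n + 2) := by
      calc (n.choose i : ℝ) * q ^ (i + 1) ≤ ((n + 2).choose i : ℝ) * q ^ (i + 1) :=
            mul_le_mul_of_nonneg_right h3 (by positivity)
        _ = q * (((n + 2).choose i : ℝ) * q ^ i) := by ring
        _ ≤ _ := mul_le_mul_of_nonneg_left h2 hq
    rw [Nat.choose_succ_succ', Nat.cast_add, add_mul]
    linarith

lemma deco_nbw_le {D : ℕ} (hD : 1 ≤ D) (hreg : ∀ x, (H.neighborFinset x).card = D) (y : W) :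
    ∀ m x, ∑ n ∈ range (m + 1), deco ((D : ℝ) - 1) m n * nbw H y n none x ≤ walkCount H y m x := by
  have hq : (0 : ℝ) ≤ (D : ℝ) - 1 := by rw [sub_nonneg]; exact_mod_cast hD
  intro m
  induction m with
  | zero => intro x; simp [deco, nbw, walkCount_zero]
  | succ m ih =>
    intro x
    rw [walkCount_succ]
    refine le_trans ?_ (sum_le_sum fun w _ => ih w)
    rw [sum_comm]
    simp only [← mul_sum]
    set q : ℝ := (D : ℝ) - 1 with hqdef
    have hr : ∑ n ∈ range (m + 2), deco q (m + 1) n * nbw H y n none x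
        = ∑ n ∈ range (m + 1), deco q m n * nbw H y (n + 1) none x
          + ∑ n ∈ range m, q * deco q m (n + 1) * nbw H y n none x := by
      simp only [deco, add_mul, sum_add_distrib]
      congr 1
      · rw [sum_range_succ']
        simp
      · refine (sum_subset (range_subset_range.2 (by omega)) fun n _ hn => ?_).symm
        rw [deco_eq_zero q m (n + 1) (by simp at hn; omega)]
        simp
    rw [hr, sum_range_succ' (fun n => deco q m n * nbw H y (n + 1) none x),
      sum_range_succ' (fun n => deco q m n * ∑ w ∈ H.neighborFinset x, nbw H y n none w),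
      add_right_comm, ← sum_add_distrib]
    refine add_le_add (sum_le_sum fun n _ => ?_) (le_of_eq ?_)
    · have := mul_le_mul_of_nonneg_left (adj_nbw_ge hreg y n x) (deco_nonneg hq m (n + 1))
      rw [← hqdef] at this
      linarith
    · simp [nbw, next]

/-- Number of self-avoiding walks. -/
noncomputable def pathCount (H : SimpleGraph W) [H.LocallyFinite] (y : W) (n : ℕ) (x : W) : ℝ :=
  ((H.finsetWalkLength n x y).filter fun q => q.IsPath).card

lemma pathCount_nonneg (y : W) (n : ℕ) (x : W) : 0 ≤ pathCount H y n x := Nat.cast_nonneg _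

lemma pathCount_le_walkCount (y : W) (n : ℕ) (x : W) : pathCount H y n x ≤ walkCount H y n x :=
  Nat.cast_le.2 (card_filter_le _ _)

lemma avoid_le_nbw (y : W) : ∀ (n : ℕ) (u : Option W) (x : W),
    (((H.finsetWalkLength n x y).filter fun q => q.IsPath ∧ ∀ a ∈ u, a ∉ q.support).card : ℝ)
      ≤ nbw H y n u x
  | 0, u, x => by
    refine (Nat.cast_le.2 (card_filter_le _ _)).trans (le_of_eq ?_)
    exact walkCount_zero x y
  | n + 1, u, x => by
    simp only [SimpleGraph.finsetWalkLength, filter_biUnion]
    refine (Nat.cast_le.2 card_biUnion_le).trans ?_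
    rw [Nat.cast_sum, nbw]
    have hsub : (H.neighborFinset x).filter (fun w => w ∈ next H u x) = next H u x := by
      rw [filter_mem_eq_inter, inter_eq_right]
      cases u <;> simp [next, erase_subset]
    rw [← hsub, sum_filter, sum_subtype (H.neighborFinset x) (p := fun z => z ∈ H.neighborSet x) (fun z => SimpleGraph.mem_neighborFinset H x z)
      (fun w => if w ∈ next H u x then nbw H y n (some x) w else 0)]
    refine sum_le_sum fun w _ => ?_
    rw [filter_map, card_map]
    by_cases hw : (w : W) ∈ next H u x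
    · rw [if_pos hw]
      refine le_trans (Nat.cast_le.2 (card_le_card fun q hq => ?_)) (avoid_le_nbw y n (some x) w)
      obtain ⟨h1, h2, -⟩ : q ∈ H.finsetWalkLength n w y ∧ (SimpleGraph.Walk.cons (show H.Adj x w from w.2) q).IsPath ∧ _ := mem_filter.1 hq
      refine mem_filter.2 ?_
      rw [SimpleGraph.Walk.cons_isPath_iff] at h2
      exact ⟨h1, h2.1, fun a ha => by cases ha; exact h2.2⟩
    · rw [if_neg hw, Nat.cast_nonpos, card_eq_zero, filter_eq_empty_iff]
      rintro q - ⟨-, h⟩
      cases u with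
      | none => exact hw (by rw [next, SimpleGraph.mem_neighborFinset]; exact w.2)
      | some a =>
        refine h a rfl ?_
        obtain rfl : (w : W) = a := by
          by_contra hne
          exact hw (by rw [next, mem_erase, SimpleGraph.mem_neighborFinset]; exact ⟨hne, w.2⟩)
        exact List.mem_cons_of_mem _ (SimpleGraph.Walk.start_mem_support _)

lemma pathCount_le_nbw (y : W) (n : ℕ) (x : W) : pathCount H y n x ≤ nbw H y n none x := by
  refine le_trans (le_of_eq ?_) (avoid_le_nbw y n none x)
  simp [pathCount]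

/-- A path of `n` steps costs as much as a sum over decorated walks. -/
theorem pathCount_mul_pow_le {D : ℕ} (hD : 1 ≤ D) (hreg : ∀ x, (H.neighborFinset x).card = D)
    {z : ℝ} (hz : 0 ≤ z) (y : W) (n : ℕ) (x : W) :
    pathCount H y n x * (z + ((D : ℝ) - 1) * z ^ 3) ^ n
      ≤ ∑ j ∈ range (n + 1), z ^ (n + 2 * j) * walkCount H y (n + 2 * j) x := by
  have hq : (0 : ℝ) ≤ (D : ℝ) - 1 := by rw [sub_nonneg]; exact_mod_cast hD
  refine (mul_le_mul_of_nonneg_right (pathCount_le_nbw y n x) (by positivity)).trans ?_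
  rw [show z + ((D : ℝ) - 1) * z ^ 3 = z * (((D : ℝ) - 1) * z ^ 2 + 1) by ring, mul_pow, add_pow,
    mul_sum, mul_sum]
  refine sum_le_sum fun j hj => ?_
  have h1 := mul_le_mul_of_nonneg_right (choose_le_deco hq (n + 2 * j) n j rfl) (nbw_nonneg (H := H) y n none x)
  have h2 := h1.trans ((single_le_sum (fun i _ => mul_nonneg (deco_nonneg hq _ i) (nbw_nonneg y i none x))
    (mem_range.2 (by omega : n < n + 2 * j + 1))).trans (deco_nbw_le hD hreg y (n + 2 * j) x))
  calc nbw H y n none x * (z ^ n * ((((D : ℝ) - 1) * z ^ 2) ^ j * 1 ^ (n - j) * (n.choose j : ℝ)))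
      = z ^ (n + 2 * j) * ((n.choose j : ℝ) * ((D : ℝ) - 1) ^ j * nbw H y n none x) := by
        rw [one_pow, mul_pow, ← pow_mul, pow_add]; ring
    _ ≤ _ := mul_le_mul_of_nonneg_left h2 (by positivity)

/-- Exponential bound on paths. -/
theorem pathCount_tail {D : ℕ} (hD : 1 ≤ D) (hreg : ∀ x, (H.neighborFinset x).card = D)
    {z c : ℝ} (hz : 0 ≤ z) (hc : 0 < c) (hzc : z * c < 1) (hf : Form H c) (y : W) (N n : ℕ)
    (hn : N ≤ n) (x : W) :
    pathCount H y n x * (z + ((D : ℝ) - 1) * z ^ 3) ^ n
      ≤ (z * c) ^ n / (1 - z * c) * (Real.sqrt (walkCount H y (2 * N) y) / c ^ N) := by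
  refine (pathCount_mul_pow_le hD hreg hz y n x).trans ?_
  set Q := Real.sqrt (walkCount H y (2 * N) y) / c ^ N with hQ
  have hzc0 : 0 ≤ z * c := by positivity
  calc ∑ j ∈ range (n + 1), z ^ (n + 2 * j) * walkCount H y (n + 2 * j) x
      ≤ ∑ j ∈ range (n + 1), (z * c) ^ n * (z * c) ^ j * Q := by
        refine sum_le_sum fun j _ => ?_
        obtain ⟨m, rfl⟩ : ∃ m, n = N + m := ⟨n - N, by omega⟩
        have h := walkCount_le_tail hc.le hf y N (m + 2 * j) x
        rw [← add_assoc] at h
        calc z ^ (N + m + 2 * j) * walkCount H y (N + m + 2 * j) x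
            ≤ z ^ (N + m + 2 * j) * (c ^ (m + 2 * j) * Real.sqrt (walkCount H y (2 * N) y)) :=
              mul_le_mul_of_nonneg_left h (by positivity)
          _ = (z * c) ^ (N + m + 2 * j) * Q := by
              rw [hQ, mul_pow, show N + m + 2 * j = N + (m + 2 * j) by omega, pow_add c N]
              field_simp
          _ ≤ _ := by
              rw [← pow_add]
              exact mul_le_mul_of_nonneg_right
                (pow_le_pow_of_le_one hzc0 hzc.le (by omega)) (by positivity)
    _ = (z * c) ^ n * (∑ j ∈ range (n + 1), (z * c) ^ j) * Q := by rw [mul_sum, sum_mul]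
    _ ≤ _ := by
        rw [div_eq_mul_inv]
        refine mul_le_mul_of_nonneg_right (mul_le_mul_of_nonneg_left ?_ (by positivity)) (by positivity)
        exact sum_le_hasSum _ (fun j _ => by positivity) (hasSum_geometric_of_lt_one hzc0 hzc)

end Vale.Agent.P165.Sus
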