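import Mathlib
import Vale.Agent.P165.Sus.Walks

/-!
Connection events away from a finite set of edges.
-/

namespace Vale.Agent.P165.Sus

open MeasureTheory Finset

variable {W : Type} {p : unitInterval}

/-- An increasing union of events, each decided by finitely many coordinates outside `E`. -/
def Off (E : Finset (Sym2 W)) (A : Set (Sym2 W → Bool)) : Prop :=
  ∃ (B : ℕ → Set (Sym2 W → Bool)) (S : ℕ → Finset (Sym2 W)),
    Monotone B ∧ (∀ N, Dep (B N) (S N) ∧ Disjoint E (S N)) ∧ A = ⋃ N, B N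

lemma Off.inter [DecidableEq (Sym2 W)] {E : Finset (Sym2 W)} {A A' : Set (Sym2 W → Bool)}
    (h : Off E A) (h' : Off E A') : Off E (A ∩ A') := by
  obtain ⟨B, S, hB, hS, rfl⟩ := h
  obtain ⟨B', S', hB', hS', rfl⟩ := h'
  exact ⟨fun N => B N ∩ B' N, fun N => S N ∪ S' N,
    fun a b hab => Set.inter_subset_inter (hB hab) (hB' hab), fun N =>
    ⟨((hS N).1.mono subset_union_left).inter ((hS' N).1.mono subset_union_right),
      disjoint_union_right.2 ⟨(hS N).2, (hS' N).2⟩⟩,
    (Set.iUnion_inter_of_monotone hB hB').symm⟩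

lemma tendsto_real_iUnion {B : ℕ → Set (Sym2 W → Bool)} (hB : Monotone B) :
    Filter.Tendsto (fun N => (perc W p).real (B N)) Filter.atTop
      (nhds ((perc W p).real (⋃ N, B N))) :=
  (ENNReal.tendsto_toReal (measure_ne_top _ _)).comp (tendsto_measure_iUnion_atTop hB)

lemma Off.real_inter {E : Finset (Sym2 W)} {A C : Set (Sym2 W → Bool)} (h : Off E A)
    (hC : Dep C E) : (perc W p).real (C ∩ A) = (perc W p).real C * (perc W p).real A := by
  obtain ⟨B, S, hB, hS, rfl⟩ := h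
  rw [Set.inter_iUnion]
  refine tendsto_nhds_unique (tendsto_real_iUnion fun a b hab => Set.inter_subset_inter_right _ (hB hab))
    ?_
  simp_rw [real_inter_of_disjoint hC (hS _).1 (hS _).2]
  exact (tendsto_real_iUnion hB).const_mul _

variable {H K : SimpleGraph W}

/-- Local finiteness passes to smaller graphs. -/
@[reducible] noncomputable def subFinite [H.LocallyFinite] (h : K ≤ H) : K.LocallyFinite :=
  fun x => ((H.neighborSet x).toFinite.subset fun _ hy => h hy).fintype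

lemma off_conn [DecidableEq W] [K.LocallyFinite] (E : Finset (Sym2 W))
    (hE : ∀ e ∈ E, e ∉ K.edgeSet) (x y : W) : Off E (conn K x y) := by
  refine ⟨fun N => ⋃ n ∈ range N, ⋃ q ∈ K.finsetWalkLength n x y, allOpen q.edges.toFinset,
    fun N => (range N).biUnion fun n => (K.finsetWalkLength n x y).biUnion fun q => q.edges.toFinset,
    fun a b hab => Set.biUnion_subset_biUnion_left (fun _ h => range_subset_range.2 hab h),
    fun N => ⟨fun ω ω' he hω => ?_, ?_⟩, ?_⟩
  · simp only [Set.mem_iUnion] at hω ⊢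
    obtain ⟨n, hn, q, hq, hqo⟩ := hω
    exact ⟨n, hn, q, hq, fun e h => (he e (mem_biUnion.2 ⟨n, hn, mem_biUnion.2 ⟨q, hq, h⟩⟩)).symm.trans
      (hqo e h)⟩
  · simp only [disjoint_left, mem_biUnion, not_exists, not_and, List.mem_toFinset]
    exact fun e he n _ q _ h => hE e he (q.edges_subset_edgeSet h)
  · rw [conn_eq_iUnion]
    ext ω
    simp only [Set.mem_iUnion, exists_prop, mem_range]
    exact ⟨fun ⟨n, h⟩ => ⟨n + 1, n, Nat.lt_succ_self n, h⟩, fun ⟨_, n, _, h⟩ => ⟨n, h⟩⟩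

lemma conn_subset (h : K ≤ H) (x y : W) : conn K x y ⊆ conn H x y :=
  fun ω hω => SimpleGraph.Reachable.mono (show openGraph K ω ≤ openGraph H ω from fun _ _ ha => ⟨h ha.1, ha.2⟩) hω

lemma mem_conn_of_walk {ω : Sym2 W → Bool} {a b : W} (q : H.Walk a b)
    (hK : ∀ e ∈ q.edges, e ∈ K.edgeSet) (ho : ∀ e ∈ q.edges, ω e = true) : ω ∈ conn K a b :=
  reachable_openGraph_of_walk (q.transfer K hK) (by simpa [SimpleGraph.Walk.edges_transfer] using ho)

/-- Stop a walk at its first visit to `S`. -/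
lemma exists_first_hit (S : Set W) : ∀ {a b : W} (q : H.Walk a b), b ∈ S → a ∉ S →
    ∃ y c, ∃ r : H.Walk a y, c ∈ S ∧ H.Adj y c ∧ s(y, c) ∈ q.edges ∧
      (∀ u ∈ r.support, u ∉ S) ∧ ∀ e ∈ r.edges, e ∈ q.edges := by
  intro a b q
  induction q with
  | nil => exact fun h h' => absurd h h'
  | @cons a w b h q ih =>
    intro hb ha
    by_cases hw : w ∈ S
    · exact ⟨a, w, .nil, hw, h, by simp, by simp [ha], by simp⟩
    · obtain ⟨y, c, r, h1, h2, h3, h4, h5⟩ := ih hb hw
      exact ⟨y, c, .cons h r, h1, h2, by simp [h3],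
        by simpa [ha] using h4, fun e he => by
          rcases List.mem_cons.1 (by simpa using he) with rfl | he'
          · simp
          · simp [h5 e he']⟩

lemma conn_map (φ : H ≃g H) (x y : W) [H.LocallyFinite] :
    (perc W p).real (conn H (φ x) (φ y)) = (perc W p).real (conn H x y) := by
  conv_rhs => rw [← perc_map φ.toEquiv]
  rw [map_measureReal_apply (measurable_pi_lambda _ fun e => measurable_pi_apply _)
    (measurableSet_conn x y)]
  congr 1
  ext ω
  exact (openGraph_map_iso φ ω x y).symm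

/-- A bound summed over targets for events witnessed by an open path from `x` to `y`. -/
lemma sum_paths_le [H.LocallyFinite] [DecidableEq W] {ι : Type} (x y : W) (n₀ : ℕ) (Λ : Finset ι)
    (G : H.Walk x y → ι → Set (Sym2 W → Bool)) (g : ℕ → ℝ) {B : ℝ}
    (hG : ∀ q : H.Walk x y, q.IsPath → ∑ i ∈ Λ, (perc W p).real (allOpen q.edges.toFinset ∩ G q i)
      ≤ (p : ℝ) ^ q.length * g q.length)
    (hB : ∀ N, ∑ n ∈ Ico n₀ N, pathCount H y n x * ((p : ℝ) ^ n * g n) ≤ B) :
    ∑ i ∈ Λ, (perc W p).real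
      {ω | ∃ q : H.Walk x y, q.IsPath ∧ n₀ ≤ q.length ∧ ω ∈ allOpen q.edges.toFinset ∩ G q i}
      ≤ B := by
  classical
  let P : ℕ → Finset (H.Walk x y) := fun n => (H.finsetWalkLength n x y).filter fun q => q.IsPath
  let U : ι → ℕ → Set (Sym2 W → Bool) := fun i N =>
    ⋃ n ∈ Ico n₀ N, ⋃ q ∈ P n, allOpen q.edges.toFinset ∩ G q i
  have hU : ∀ i, {ω | ∃ q : H.Walk x y, q.IsPath ∧ n₀ ≤ q.length ∧
      ω ∈ allOpen q.edges.toFinset ∩ G q i} = ⋃ N, U i N := by
    intro i
    ext ω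
    simp only [U, P, Set.mem_ofPred_eq, Set.mem_iUnion, mem_filter, mem_Ico, exists_prop,
      SimpleGraph.mem_finsetWalkLength_iff]
    constructor
    · rintro ⟨q, h1, h2, h3⟩
      exact ⟨q.length + 1, q.length, ⟨h2, Nat.lt_succ_self _⟩, q, ⟨rfl, h1⟩, h3⟩
    · rintro ⟨N, n, ⟨h2, -⟩, q, ⟨rfl, h1⟩, h3⟩
      exact ⟨q, h1, h2, h3⟩
  have hmono : ∀ i, Monotone (U i) := fun i a b hab =>
    Set.biUnion_subset_biUnion_left fun _ h => Ico_subset_Ico le_rfl hab h
  simp only [hU]
  refine le_of_tendsto (tendsto_finsetSum Λ fun i _ => tendsto_real_iUnion (hmono i))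
    (Filter.Eventually.of_forall fun N => le_trans ?_ (hB N))
  calc ∑ i ∈ Λ, (perc W p).real (U i N)
      ≤ ∑ i ∈ Λ, ∑ n ∈ Ico n₀ N, ∑ q ∈ P n, (perc W p).real (allOpen q.edges.toFinset ∩ G q i) :=
        sum_le_sum fun i _ => (measureReal_biUnion_finset_le _ _).trans
          (sum_le_sum fun n _ => measureReal_biUnion_finset_le _ _)
    _ = ∑ n ∈ Ico n₀ N, ∑ q ∈ P n, ∑ i ∈ Λ, (perc W p).real (allOpen q.edges.toFinset ∩ G q i) := by
        rw [sum_comm]
        exact sum_congr rfl fun n _ => sum_comm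
    _ ≤ _ := sum_le_sum fun n _ => by
        refine (sum_le_card_nsmul (P n) _ ((p : ℝ) ^ n * g n) fun q hq => ?_).trans
          (le_of_eq (by rw [nsmul_eq_mul]; rfl))
        obtain ⟨h1, h2⟩ := mem_filter.1 hq
        rw [← SimpleGraph.mem_finsetWalkLength_iff.1 h1]
        exact hG q h2

end Vale.Agent.P165.Sus
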