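import Mathlib
import Vale.Agent.P165.Sus.Events

/-!
The expected cluster size solves, up to short cycles, the tree inequality.
-/

namespace Vale.Agent.P165.Sus

open MeasureTheory Finset

variable {W : Type} {H : SimpleGraph W} [H.LocallyFinite] [DecidableEq W] {p : unitInterval}

/-- Expected number of vertices of `Λ` in the cluster of `v`. -/
noncomputable def vol (H : SimpleGraph W) (p : unitInterval) (Λ : Finset W) (v : W) : ℝ :=
  ∑ y ∈ Λ, (perc W p).real (conn H v y)

omit [H.LocallyFinite] [DecidableEq W] in
lemma vol_mono {Λ Λ' : Finset W} (h : Λ ⊆ Λ') (v : W) : vol H p Λ v ≤ vol H p Λ' v :=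
  sum_le_sum_of_subset_of_nonneg h fun _ _ _ => measureReal_nonneg

theorem vol_ineq {D : ℕ} (hreg : ∀ x, (H.neighborFinset x).card = D) (v : W) (e₁ e₂ X : ℝ)
    (b₁ : W → ℝ) (b₂ : W → W → ℝ) (hX : 0 ≤ X)
    (hb₁ : ∀ w ∈ H.neighborFinset v, ∀ N,
      ∑ n ∈ Ico 2 N, pathCount H v n w * (p : ℝ) ^ n ≤ b₁ w)
    (he₁ : ∑ w ∈ H.neighborFinset v, b₁ w ≤ e₁)
    (hb₂ : ∀ w ∈ H.neighborFinset v, ∀ w' ∈ (H.neighborFinset v).erase w, ∀ N,
      ∑ n ∈ range N, pathCount H w' n w * (p : ℝ) ^ n * (n + 1) ≤ b₂ w w')
    (he₂ : ∑ w ∈ H.neighborFinset v, ∑ w' ∈ (H.neighborFinset v).erase w, b₂ w w' ≤ e₂)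
    (Λ : Finset W) (hΛX : ∀ u, vol H p Λ u ≤ X) (hv : v ∈ Λ) :
    1 + (p : ℝ) * ∑ w ∈ H.neighborFinset v, vol H p Λ w
      ≤ (1 + D * (p : ℝ) ^ 2) * vol H p Λ v + ((p : ℝ) * e₁ + (p : ℝ) ^ 2 * e₂) * X := by
  classical
  set μ := perc W p with hμ
  set Kv := H.deleteIncidenceSet v with hKv
  haveI : Kv.LocallyFinite := subFinite (H.deleteIncidenceSet_le v)
  have hp0 : (0 : ℝ) ≤ p := p.2.1
  have hnv : ∀ {e : Sym2 W}, v ∈ e → e ∉ Kv.edgeSet := by
    intro e he h
    induction e using Sym2.ind with
    | _ a b =>
      rw [hKv, SimpleGraph.mem_edgeSet, SimpleGraph.deleteIncidenceSet_adj] at h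
      rcases Sym2.mem_iff.1 he with rfl | rfl
      · exact h.2.1 rfl
      · exact h.2.2 rfl
  have hadj : ∀ w ∈ H.neighborFinset v, H.Adj v w := fun w hw =>
    (SimpleGraph.mem_neighborFinset _ _ _).1 hw
  -- the pointwise inequality
  have hpt : ∀ y, (if y = v then 1 else 0) + (p : ℝ) * ∑ w ∈ H.neighborFinset v, μ.real (conn Kv w y)
      - (p : ℝ) ^ 2 * ∑ w ∈ H.neighborFinset v, ∑ w' ∈ (H.neighborFinset v).erase w,
          μ.real (conn Kv w y ∩ conn Kv w' y) ≤ μ.real (conn H v y) := by
    intro y
    by_cases hy : y = v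
    · subst hy
      have hempty : ∀ w ∈ H.neighborFinset y, conn Kv w y = ∅ := fun w hw => by
        refine Set.eq_empty_iff_forall_notMem.2 fun ω hω => ?_
        obtain ⟨q, -, -⟩ := exists_path_of_mem_conn hω
        cases q.reverse with
        | nil => exact (hadj y hw).ne rfl
        | cons h _ => exact hnv (Sym2.mem_mk_left _ _) h
      have h1 : conn H y y = Set.univ := Set.eq_univ_of_forall fun ω => SimpleGraph.Reachable.refl _
      rw [if_pos rfl, sum_eq_zero fun w hw => by rw [hempty w hw]; simp,
        sum_eq_zero fun w hw => sum_eq_zero fun w' _ => by rw [hempty w hw]; simp, h1]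
      simp
    · rw [if_neg hy, zero_add]
      set A : W → Set (Sym2 W → Bool) := fun w => allOpen {s(v, w)} ∩ conn Kv w y with hA
      have h := sum_sub_pairs_le μ A (fun w => (measurableSet_allOpen _).inter
        (measurableSet_conn w y)) (H.neighborFinset v)
      have hone : ∀ w, μ.real (A w) = (p : ℝ) * μ.real (conn Kv w y) := fun w => by
        rw [hA, hμ, (off_conn _ (fun e he => by
          rw [mem_singleton] at he; exact hnv (he ▸ Sym2.mem_mk_left _ _)) w y).real_inter
          (dep_allOpen _), real_allOpen]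
        simp
      have htwo : ∀ w, ∀ w' ∈ (H.neighborFinset v).erase w,
          μ.real (A w ∩ A w') = (p : ℝ) ^ 2 * μ.real (conn Kv w y ∩ conn Kv w' y) := by
        intro w w' hw'
        have hoff : ∀ u, Off ({s(v, w), s(v, w')} : Finset (Sym2 W)) (conn Kv u y) := fun u =>
          off_conn _ (fun e he => by
            rcases mem_insert.1 he with rfl | he
            · exact hnv (Sym2.mem_mk_left _ _)
            · rw [mem_singleton] at he; exact hnv (he ▸ Sym2.mem_mk_left _ _)) u y
        have e : A w ∩ A w' = allOpen {s(v, w), s(v, w')} ∩ (conn Kv w y ∩ conn Kv w' y) := by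
          ext ω
          simp only [hA, allOpen, Set.mem_inter_iff, Set.mem_ofPred_eq, mem_singleton, mem_insert,
            forall_eq_or_imp, forall_eq]
          tauto
        rw [e, hμ, ((hoff w).inter (hoff w')).real_inter (dep_allOpen _), real_allOpen,
          card_pair fun h => (mem_erase.1 hw').1 (Sym2.congr_right.1 h).symm]
      simp only [hone] at h
      rw [sum_congr rfl fun w _ => sum_congr rfl (htwo w)] at h
      simp only [← mul_sum] at h
      refine h.trans (measureReal_mono ?_)
      intro ω hω
      simp only [Set.mem_iUnion] at hω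
      obtain ⟨w, hw, ho, hc⟩ := hω
      exact (SimpleGraph.Adj.reachable (G := openGraph H ω)
        ⟨hadj w hw, ho _ (mem_singleton_self _)⟩).trans (conn_subset (H.deleteIncidenceSet_le v) w y hc)
  -- connections lost by avoiding `v`
  have hlost : ∀ w ∈ H.neighborFinset v, vol H p Λ w
      ≤ ∑ y ∈ Λ, μ.real (conn Kv w y) + ((p : ℝ) * vol H p Λ v + b₁ w * X) := by
    intro w hw
    let G : H.Walk w v → W → Set (Sym2 W → Bool) := fun q y =>
      conn (H.deleteEdges (q.edges.toFinset : Set (Sym2 W))) v y
    have hG : ∀ q : H.Walk w v, q.IsPath →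
        ∑ y ∈ Λ, μ.real (allOpen q.edges.toFinset ∩ G q y) ≤ (p : ℝ) ^ q.length * vol H p Λ v := by
      intro q hq
      haveI : (H.deleteEdges (q.edges.toFinset : Set (Sym2 W))).LocallyFinite :=
        subFinite (SimpleGraph.deleteEdges_le _)
      rw [vol, mul_sum]
      refine sum_le_sum fun y _ => ?_
      rw [hμ, (off_conn _ (fun e he => by simp [SimpleGraph.edgeSet_deleteEdges] at he ⊢; intro _; exact he)
        v y).real_inter (dep_allOpen _), real_allOpen,
        List.toFinset_card_of_nodup hq.isTrail.edges_nodup, SimpleGraph.Walk.length_edges]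
      exact mul_le_mul_of_nonneg_left
        (measureReal_mono (conn_subset (SimpleGraph.deleteEdges_le _) v y)) (by positivity)
    have hB : ∀ N, ∑ n ∈ Ico 1 N, pathCount H v n w * ((p : ℝ) ^ n * vol H p Λ v)
        ≤ (p : ℝ) * vol H p Λ v + b₁ w * X := by
      intro N
      have hF0 : 0 ≤ vol H p Λ v := sum_nonneg fun _ _ => measureReal_nonneg
      have h2 := hb₁ w hw N
      have h2' : 0 ≤ b₁ w := by simpa using hb₁ w hw 0
      by_cases hN : 1 < N
      · rw [sum_eq_sum_Ico_succ_bot hN]
        refine add_le_add ?_ ?_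
        · rw [pow_one]
          refine mul_le_of_le_one_left (by positivity) ((pathCount_le_walkCount v 1 w).trans ?_)
          rw [walkCount_succ]
          simp only [walkCount_zero, sum_ite_eq']
          split <;> norm_num
        · rw [show (1 : ℕ) + 1 = 2 from rfl]
          simp only [← mul_assoc, ← sum_mul]
          exact mul_le_mul h2 (hΛX v) hF0 h2'
      · rw [Ico_eq_empty hN, sum_empty]; positivity
    refine le_trans ?_ (add_le_add le_rfl (sum_paths_le w v 1 Λ G (fun _ => vol H p Λ v) hG hB))
    rw [vol, ← sum_add_distrib]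
    refine sum_le_sum fun y _ => le_trans (measureReal_mono ?_) (measureReal_union_le _ _)
    intro ω hω
    obtain ⟨q, hq, hqo⟩ := exists_path_of_mem_conn hω
    by_cases hvq : v ∈ q.support
    · have ed : q.edges = (q.takeUntil v hvq).edges ++ (q.dropUntil v hvq).edges := by
        rw [← SimpleGraph.Walk.edges_append, q.take_spec hvq]
      refine Or.inr ⟨q.takeUntil v hvq, hq.takeUntil hvq, ?_, fun e he => hqo e ?_, ?_⟩
      · rcases Nat.eq_zero_or_pos (q.takeUntil v hvq).length with h | h
        · exact absurd (SimpleGraph.Walk.eq_of_length_eq_zero h) (hadj w hw).ne'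
        · exact h
      · simp only [List.mem_toFinset] at he ⊢
        rw [ed]; exact List.mem_append_left _ he
      · refine mem_conn_of_walk (q.dropUntil v hvq) (fun e he => ?_) fun e he => hqo e ?_
        · rw [SimpleGraph.edgeSet_deleteEdges]
          refine ⟨(q.dropUntil v hvq).edges_subset_edgeSet he, fun h => ?_⟩
          have hd := hq.isTrail.edges_nodup
          rw [ed] at hd
          exact List.disjoint_of_nodup_append hd (List.mem_toFinset.1 h) he
        · rw [List.mem_toFinset, ed]; exact List.mem_append_right _ he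
    · refine Or.inl (mem_conn_of_walk q (fun e he => ?_) fun e he => hqo e (List.mem_toFinset.2 he))
      induction e using Sym2.ind with
      | _ a b =>
        rw [hKv, SimpleGraph.mem_edgeSet, SimpleGraph.deleteIncidenceSet_adj]
        exact ⟨q.adj_of_mem_edges he, fun h => hvq (h ▸ q.fst_mem_support_of_mem_edges he),
          fun h => hvq (h ▸ q.snd_mem_support_of_mem_edges he)⟩
  -- pairs of children with a common target
  have hover : ∀ w ∈ H.neighborFinset v, ∀ w' ∈ (H.neighborFinset v).erase w,
      ∑ y ∈ Λ, μ.real (conn Kv w y ∩ conn Kv w' y) ≤ b₂ w w' * X := by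
    intro w hw w' hw'
    let G : H.Walk w w' → W → Set (Sym2 W → Bool) := fun q y =>
      ⋃ c ∈ q.support.toFinset, conn (H.deleteEdges (q.edges.toFinset : Set (Sym2 W))) c y
    have hG : ∀ q : H.Walk w w', q.IsPath →
        ∑ y ∈ Λ, μ.real (allOpen q.edges.toFinset ∩ G q y)
          ≤ (p : ℝ) ^ q.length * (((q.length : ℝ) + 1) * X) := by
      intro q hq
      haveI : (H.deleteEdges (q.edges.toFinset : Set (Sym2 W))).LocallyFinite :=
        subFinite (SimpleGraph.deleteEdges_le _)
      calc ∑ y ∈ Λ, μ.real (allOpen q.edges.toFinset ∩ G q y)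
          ≤ ∑ y ∈ Λ, ∑ c ∈ q.support.toFinset, (p : ℝ) ^ q.length * μ.real (conn H c y) := by
            refine sum_le_sum fun y _ => ?_
            simp only [G, Set.inter_iUnion₂]
            refine (measureReal_biUnion_finset_le _ _).trans (sum_le_sum fun c _ => ?_)
            rw [hμ, (off_conn _ (fun e he => by simp [SimpleGraph.edgeSet_deleteEdges] at he ⊢; intro _; exact he)
              c y).real_inter (dep_allOpen _), real_allOpen,
              List.toFinset_card_of_nodup hq.isTrail.edges_nodup, SimpleGraph.Walk.length_edges]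
            exact mul_le_mul_of_nonneg_left
              (measureReal_mono (conn_subset (SimpleGraph.deleteEdges_le _) c y)) (by positivity)
        _ = (p : ℝ) ^ q.length * ∑ c ∈ q.support.toFinset, vol H p Λ c := by
            rw [sum_comm, mul_sum]
            simp only [vol, mul_sum, hμ]
        _ ≤ _ := by
            refine mul_le_mul_of_nonneg_left ((sum_le_card_nsmul _ _ X fun c _ => hΛX c).trans ?_)
              (by positivity)
            rw [nsmul_eq_mul]
            refine mul_le_mul_of_nonneg_right ?_ hX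
            exact_mod_cast (List.toFinset_card_le _).trans (le_of_eq q.length_support)
    have hB : ∀ N, ∑ n ∈ Ico 0 N, pathCount H w' n w * ((p : ℝ) ^ n * (((n : ℝ) + 1) * X))
        ≤ b₂ w w' * X := by
      intro N
      simp only [← mul_assoc, ← sum_mul, ← range_eq_Ico]
      exact mul_le_mul_of_nonneg_right (hb₂ w hw w' hw' N) hX
    refine le_trans (sum_le_sum fun y _ => measureReal_mono ?_)
      (sum_paths_le w w' 0 Λ G (fun n => ((n : ℝ) + 1) * X) hG hB)
    intro ω hω
    obtain ⟨q, -, hqo⟩ := exists_path_of_mem_conn hω.1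
    obtain ⟨q', -, hq'o⟩ := exists_path_of_mem_conn hω.2
    set Q := q.mapLe (H.deleteIncidenceSet_le v) with hQ
    set Q' := q'.mapLe (H.deleteIncidenceSet_le v) with hQ'
    set r := (Q.append Q'.reverse).bypass with hr
    have hQo : ∀ e ∈ Q.edges, ω e = true := fun e he => hqo e (by simpa [hQ] using he)
    refine ⟨r, SimpleGraph.Walk.bypass_isPath _, Nat.zero_le _, fun e he => ?_, ?_⟩
    · have := (Q.append Q'.reverse).edges_bypass_subset (List.mem_toFinset.1 he)
      rw [SimpleGraph.Walk.edges_append, List.mem_append, SimpleGraph.Walk.edges_reverse,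
        List.mem_reverse] at this
      rcases this with h | h
      · exact hQo e h
      · exact hq'o e (by simpa [hQ'] using h)
    · simp only [G, Set.mem_iUnion]
      by_cases hy : y ∈ r.support
      · exact ⟨y, List.mem_toFinset.2 hy, SimpleGraph.Reachable.refl _⟩
      obtain ⟨a, c, r', hc, hac, he, hr', he'⟩ :=
        exists_first_hit {u | u ∈ r.support} Q.reverse r.start_mem_support hy
      have hdel : ∀ {e : Sym2 W} {u : W}, e ∈ H.edgeSet → u ∈ e → u ∉ r.support →
          e ∈ (H.deleteEdges (r.edges.toFinset : Set (Sym2 W))).edgeSet := by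
        intro e u h1 h2 h3
        rw [SimpleGraph.edgeSet_deleteEdges]
        refine ⟨h1, fun h => h3 ?_⟩
        induction e using Sym2.ind with
        | _ a b =>
          rcases Sym2.mem_iff.1 h2 with rfl | rfl
          · exact r.fst_mem_support_of_mem_edges (List.mem_toFinset.1 h)
          · exact r.snd_mem_support_of_mem_edges (List.mem_toFinset.1 h)
      refine ⟨c, List.mem_toFinset.2 hc, SimpleGraph.Reachable.symm ?_⟩
      refine mem_conn_of_walk (r'.append (.cons hac .nil)) (fun e h => ?_) fun e h => ?_ <;>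
        simp only [SimpleGraph.Walk.edges_append, SimpleGraph.Walk.edges_cons,
          SimpleGraph.Walk.edges_nil, List.mem_append, List.mem_singleton] at h
      · rcases h with h | rfl
        · induction e using Sym2.ind with
          | _ a' b' =>
            exact hdel (r'.edges_subset_edgeSet h) (Sym2.mem_mk_left a' b')
              (hr' a' (r'.fst_mem_support_of_mem_edges h))
        · exact hdel hac (Sym2.mem_mk_left _ _) (hr' a r'.end_mem_support)
      · refine hQo e ?_
        rcases h with h | rfl
        · simpa using he' e h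
        · simpa using he
  -- summing over the targets
  have hs := sum_le_sum fun y (_ : y ∈ Λ) => hpt y
  rw [sum_sub_distrib, sum_add_distrib, sum_ite_eq', if_pos hv, ← mul_sum, ← mul_sum, sum_comm] at hs
  rw [sum_comm (s := Λ)] at hs
  rw [sum_congr rfl fun w _ => sum_comm] at hs
  change _ ≤ vol H p Λ v at hs
  have h1 := sum_le_sum hlost
  rw [sum_add_distrib, sum_add_distrib, sum_const, hreg, nsmul_eq_mul, ← sum_mul] at h1
  have h2 := sum_le_sum fun w hw => sum_le_sum (hover w hw)
  simp only [← sum_mul] at h2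
  have h3 := mul_le_mul_of_nonneg_right he₁ hX
  have h4 := mul_le_mul_of_nonneg_right he₂ hX
  have h5 := mul_le_mul_of_nonneg_left h1 hp0
  have h6 := mul_le_mul_of_nonneg_left (h2.trans h4) (sq_nonneg (p : ℝ))
  have h7 := mul_le_mul_of_nonneg_left h3 hp0
  nlinarith

end Vale.Agent.P165.Sus
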