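import Mathlib
import Vale.Agent.P165.Unique

/-!
The infinite cluster is not unique when connection probabilities decay exponentially.
-/

namespace Vale.Agent.P165.Sus

open MeasureTheory Finset

variable {W : Type} {H : SimpleGraph W} [H.LocallyFinite] [DecidableEq W] {p : unitInterval}

/-- No uniqueness of the infinite cluster when connections decay in the distance. -/
theorem not_unique [Countable W] {C t : ℝ} (hC : 0 ≤ C) (ht0 : 0 ≤ t) (ht1 : t < 1)
    (hconn : ∀ x y L, (∀ q : H.Walk x y, L < q.length) → (perc W p).real (conn H x y) ≤ C * t ^ L) (horb : ∀ x : W, {z | ∃ φ : H ≃g H, φ x = z}.Infinite) :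
    perc W p {ω | ∃! C : (openGraph H ω).ConnectedComponent, C.supp.Infinite} ≠ 1 := by
  intro hS
  set S := {ω | ∃! C : (openGraph H ω).ConnectedComponent, C.supp.Infinite} with hSdef
  have hsupp : ∀ ω x, ((openGraph H ω).connectedComponentMk x).supp
      = {y | (openGraph H ω).Reachable x y} := fun ω x => by
    ext y
    simp [SimpleGraph.ConnectedComponent.eq, SimpleGraph.reachable_comm]
  have hpair : ∀ x y, (perc W p).real ((toInf H x ∩ toInf H y) \ conn H x y) = 0 := by
    intro x y
    have hm : MeasurableSet ((toInf H x ∩ toInf H y) \ conn H x y) :=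
      ((measurableSet_toInf x).inter (measurableSet_toInf y)).diff (measurableSet_conn x y)
    have hsub : S ⊆ ((toInf H x ∩ toInf H y) \ conn H x y)ᶜ := by
      rintro ω ⟨C, hC, huniq⟩ ⟨⟨hx, hy⟩, hn⟩
      have h1 := huniq ((openGraph H ω).connectedComponentMk x)
        (show Set.Infinite _ by rw [hsupp]; exact hx)
      have h2 := huniq ((openGraph H ω).connectedComponentMk y)
        (show Set.Infinite _ by rw [hsupp]; exact hy)
      exact hn (SimpleGraph.ConnectedComponent.eq.1 (h1.trans h2.symm))
    have h := measure_mono (μ := perc W p) hsub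
    rw [hS, prob_compl_eq_one_sub hm] at h
    have : perc W p ((toInf H x ∩ toInf H y) \ conn H x y) = 0 := by
      by_contra hne
      exact absurd h (not_le.2 (ENNReal.sub_lt_self ENNReal.one_ne_top one_ne_zero hne))
    simp [measureReal_def, this]
  obtain ⟨x, hx⟩ : ∃ x, perc W p (toInf H x) ≠ 0 := by
    by_contra h
    push Not at h
    have hsub : S ⊆ ⋃ x, toInf H x := by
      rintro ω ⟨C, hC, -⟩
      induction C using SimpleGraph.ConnectedComponent.ind with
      | _ v => exact Set.mem_iUnion.2 ⟨v, by rw [toInf, Set.mem_ofPred_eq, ← hsupp]; exact hC⟩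
    have := measure_mono_null hsub (measure_iUnion_null h)
    rw [hS] at this
    exact one_ne_zero this
  set θ := (perc W p).real (toInf H x) with hθ
  have hθ0 : 0 < θ := ENNReal.toReal_pos hx (measure_ne_top _ _)
  obtain ⟨m, hm⟩ := exists_nat_gt (2 / θ)
  have hmθ : 2 < m * θ := by rwa [div_lt_iff₀ hθ0] at hm
  obtain ⟨L, hL⟩ := exists_pow_lt_of_lt_one
    (show 0 < 1 / ((C + 1) * (m * m + 1)) by positivity) ht1
  obtain ⟨Y, hYO, hY, hsep⟩ := exists_separated (H := H) L (horb x) m
  have hbon := sum_sub_pairs_le (perc W p) (fun z => toInf H z) (fun z => measurableSet_toInf z) Y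
  have h1 : ∑ z ∈ Y, (perc W p).real (toInf H z) = m * θ := by
    rw [sum_congr rfl (g := fun _ => θ) fun z hz => ?_, sum_const, hY, nsmul_eq_mul]
    obtain ⟨φ, rfl⟩ := hYO hz
    exact real_toInf_map φ x
  have h2 : ∑ i ∈ Y, ∑ j ∈ Y.erase i, (perc W p).real (toInf H i ∩ toInf H j)
      ≤ m * (m * (C * t ^ L)) := by
    have ht1 : 0 ≤ C * t ^ L :=
      by positivity
    refine (sum_le_card_nsmul Y _ _ fun i hi => ?_).trans_eq (by rw [hY, nsmul_eq_mul])
    refine (sum_le_card_nsmul (Y.erase i) _ (C * t ^ L) fun j hj => ?_).trans ?_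
    · calc (perc W p).real (toInf H i ∩ toInf H j)
          ≤ (perc W p).real (conn H i j ∪ ((toInf H i ∩ toInf H j) \ conn H i j)) :=
            measureReal_mono fun ω h => (em (ω ∈ conn H i j)).imp id fun h' => ⟨h, h'⟩
        _ ≤ _ := (measureReal_union_le _ _).trans (le_of_eq (by rw [hpair, add_zero]))
        _ ≤ _ := hconn _ _ L
            (hsep i hi j (mem_of_mem_erase hj) (ne_of_mem_erase hj).symm)
    · rw [nsmul_eq_mul]
      exact mul_le_mul_of_nonneg_right
        (by exact_mod_cast (card_erase_le.trans hY.le)) ht1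
  have h3 : (m : ℝ) * (m * (C * t ^ L)) < 1 := by
    rw [lt_div_iff₀ (by positivity)] at hL
    nlinarith [pow_nonneg ht0 L, mul_nonneg (mul_nonneg (Nat.cast_nonneg (α := ℝ) m)
      (Nat.cast_nonneg (α := ℝ) m)) (pow_nonneg ht0 L), mul_nonneg hC (pow_nonneg ht0 L)]
  linarith [measureReal_le_one (μ := perc W p) (s := ⋃ z ∈ Y, toInf H z)]

end Vale.Agent.P165.Sus
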