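import Mathlib
import Vale.Agent.P165.Main
import Vale.Agent.P165.Sus.Ineq
import Vale.Agent.P165.Product.Susc
import Vale.Agent.P165.Sus.NotUnique

/-!
Regular graphs of large degree with a spectral gap and few short closed walks have `pc < pu`.
-/

namespace Vale.Agent.P165.Sus

open MeasureTheory Finset

variable {W : Type} {H : SimpleGraph W} [H.LocallyFinite] [DecidableEq W]

/-- Few short closed walks. -/
def Moments (H : SimpleGraph W) [H.LocallyFinite] (D : ℕ) (K : ℝ) : Prop :=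
  ∀ v j, j ≤ 10 → walkCount H v (2 * j) v ≤ K * (D : ℝ) ^ j

/-- Approximate solutions of the tree inequality are comparable at all vertices. -/
def Comparable (H : SimpleGraph W) [H.LocallyFinite] (D : ℕ) (B : ℝ) : Prop :=
  ∀ (p ε X : ℝ) (f : W → ℝ), 1 ≤ p * D → p * D ≤ 2 → 0 ≤ ε → (∀ v, 0 ≤ f v) → (∀ v, f v ≤ X) →
    (∀ (φ : H ≃g H) v, f (φ v) = f v) →
    (∀ v, 1 + p * ∑ w ∈ H.neighborFinset v, f w ≤ (1 + D * p ^ 2) * f v + ε * X) →
    ∀ u v, f u ≤ B * (f v + X * ε * D)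

lemma Form.mono {c c' : ℝ} (h : Form H c) (hc : c ≤ c') : Form H c' :=
  fun S T hin u hu => (h S T hin u hu).trans
    (mul_le_mul_of_nonneg_right hc (sum_nonneg fun _ _ => sq_nonneg _))

/-- The weight of a path at parameter `z`. -/
noncomputable def wt (D : ℕ) (z : ℝ) : ℝ := z + ((D : ℝ) - 1) * z ^ 3

lemma sum_succ_mul_pow_le {t : ℝ} (h0 : 0 ≤ t) (h1 : t < 1) (s : Finset ℕ) :
    ∑ n ∈ s, ((n : ℝ) + 1) * t ^ n ≤ 1 / (1 - t) ^ 2 := by
  have h := hasSum_choose_mul_geometric_of_norm_lt_one 1 (by rwa [Real.norm_of_nonneg h0] : ‖t‖ < 1)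
  simp only [Nat.choose_one_right, Nat.cast_add, Nat.cast_one] at h
  exact sum_le_hasSum s (fun n _ => by positivity) h

lemma z_bounds {D : ℕ} {a : ℝ} (ha0 : 0 < a) (ha1 : a ≤ 1) (hD : (24 : ℝ) ≤ D) :
    1 / (D : ℝ) + a / 2 * (1 / (D : ℝ)) ^ 2 ≤ 1 / ((D : ℝ) - a / 2) ∧
      1 / ((D : ℝ) - a / 2) ≤ 1 / D + (1 / (D : ℝ)) ^ 2 := by
  set x : ℝ := (D : ℝ) with hx
  set t := 1 / x with ht
  have hden : 0 < x - a / 2 := by linarith
  have hxt : x * t = 1 := mul_one_div_cancel (by linarith)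
  have ht0 : 0 ≤ t := by rw [ht]; positivity
  constructor
  · rw [le_div_iff₀ hden]
    have e : (t + a / 2 * t ^ 2) * (x - a / 2) = 1 - a ^ 2 / 4 * t ^ 2 := by
      linear_combination (1 + a / 2 * t) * hxt
    rw [e]
    linarith [show 0 ≤ a ^ 2 / 4 * t ^ 2 by positivity]
  · rw [div_le_iff₀ hden]
    have e : (t + t ^ 2) * (x - a / 2) = 1 + t * (1 - a / 2 - a / 2 * t) := by
      linear_combination (1 + t) * hxt
    have h1 : t ≤ 1 := by rw [ht, div_le_one (by linarith)]; linarith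
    have h2 : a / 2 * t ≤ a / 2 := mul_le_of_le_one_right (by linarith) h1
    rw [e]
    linarith [mul_nonneg ht0 (show 0 ≤ 1 - a / 2 - a / 2 * t by linarith)]

lemma wt_bounds {D : ℕ} {a z : ℝ} (ha0 : 0 < a) (ha1 : a ≤ 1) (hD : (24 : ℝ) ≤ D)
    (hlo : 1 / (D : ℝ) + a / 2 * (1 / (D : ℝ)) ^ 2 ≤ z) (hhi : z ≤ 1 / D + (1 / (D : ℝ)) ^ 2) :
    1 / (D : ℝ) + (1 + a / 2) * (1 / (D : ℝ)) ^ 2 - (1 / (D : ℝ)) ^ 3 ≤ wt D z ∧
      wt D z ≤ 2 * (1 / (D : ℝ)) := by
  set t := 1 / (D : ℝ) with ht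
  have hDt : (D : ℝ) * t = 1 := mul_one_div_cancel (by linarith)
  have ht0 : 0 ≤ t := by rw [ht]; positivity
  have ht1 : t ≤ 1 / 24 := by rw [ht]; exact one_div_le_one_div_of_le (by norm_num) hD
  have htz : t ≤ z := le_trans (le_add_of_nonneg_right (by positivity)) hlo
  have ht2 : t ^ 2 ≤ 1 / 24 * t := by rw [sq]; exact mul_le_mul_of_nonneg_right ht1 ht0
  have h2t : z ≤ 2 * t := by linarith
  unfold wt
  constructor
  · have h4 : ((D : ℝ) - 1) * t ^ 3 ≤ ((D : ℝ) - 1) * z ^ 3 :=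
      mul_le_mul_of_nonneg_left (pow_le_pow_left₀ ht0 htz 3) (by linarith)
    have e : ((D : ℝ) - 1) * t ^ 3 = t ^ 2 - t ^ 3 := by linear_combination t ^ 2 * hDt
    linarith
  · have h4 : ((D : ℝ) - 1) * z ^ 3 ≤ D * (2 * t) ^ 3 :=
      mul_le_mul (by linarith) (pow_le_pow_left₀ (by linarith) h2t 3) (pow_nonneg (by linarith) 3)
        (by linarith)
    have e : (D : ℝ) * (2 * t) ^ 3 = 8 * t ^ 2 := by linear_combination 8 * t ^ 2 * hDt
    linarith

lemma numeric {D : ℕ} {a : ℝ} (ha0 : 0 < a) (ha1 : a ≤ 1) (hD : 24 / a ≤ D) :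
    let z := 1 / ((D : ℝ) - a / 2)
    0 ≤ z ∧ 0 < (D : ℝ) - a ∧ z * ((D : ℝ) - a) < 1 ∧ a / (2 * D) ≤ 1 - z * ((D : ℝ) - a) ∧
      1 ≤ wt D z * D ∧ wt D z * D ≤ 2 ∧
      a / (4 * D) ≤ D * wt D z - D * wt D z ^ 2 - 1 := by
  intro z
  have hD24 : (24 : ℝ) ≤ D := le_trans (by rw [le_div_iff₀ ha0]; linarith) hD
  have hD0 : (0 : ℝ) < D := by linarith
  have hden : 0 < (D : ℝ) - a / 2 := by linarith
  have hz0 : 0 < z := div_pos one_pos hden
  have hzD : z * ((D : ℝ) - a / 2) = 1 := div_mul_cancel₀ _ hden.ne'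
  obtain ⟨hzlo, hzhi⟩ := z_bounds ha0 ha1 hD24
  obtain ⟨hp1, hp2⟩ := wt_bounds ha0 ha1 hD24 hzlo hzhi
  have ht : 1 / (D : ℝ) ≤ a / 24 := by
    rw [div_le_div_iff₀ hD0 (by norm_num)]
    have := (div_le_iff₀ ha0).1 hD
    linarith
  set t := 1 / (D : ℝ) with htdef
  have ht0 : 0 < t := div_pos one_pos hD0
  have hDt : (D : ℝ) * t = 1 := mul_one_div_cancel hD0.ne'
  have e : z * ((D : ℝ) - a) = 1 - z * (a / 2) := by linear_combination hzD
  have ha2 : 0 < a / 2 := by positivity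
  have hts : t ^ 3 ≤ (1 + a / 2) * t ^ 2 := by
    rw [pow_succ, mul_comm]
    exact mul_le_mul_of_nonneg_right (by linarith) (sq_nonneg t)
  have htw : t ≤ wt D z := le_trans (by linarith) hp1
  refine ⟨hz0.le, by linarith, by linarith [mul_pos hz0 ha2], ?_, ?_, ?_, ?_⟩
  · rw [e, show a / (2 * (D : ℝ)) = t * (a / 2) by rw [htdef]; field_simp]
    have h : t * (a / 2) ≤ z * (a / 2) := mul_le_mul_of_nonneg_right
      (le_trans (le_add_of_nonneg_right (by positivity)) hzlo) ha2.le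
    linarith
  · linarith [mul_le_mul_of_nonneg_right htw hD0.le]
  · linarith [mul_le_mul_of_nonneg_right hp2 hD0.le]
  · set q := t + (1 + a / 2) * t ^ 2 - t ^ 3 with hq
    have hq1 : t ≤ q := by linarith
    have hq2 : q ≤ t + 2 * t ^ 2 := by
      have : (1 + a / 2) * t ^ 2 ≤ 2 * t ^ 2 := mul_le_mul_of_nonneg_right (by linarith) (sq_nonneg t)
      linarith [pow_nonneg ht0.le 3]
    have hmono : q - q ^ 2 ≤ wt D z - wt D z ^ 2 := by
      have h : 0 ≤ (wt D z - q) * (1 - wt D z - q) :=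
        mul_nonneg (by linarith) (by linarith)
      linarith
    have h1 : t + a / 4 * t ^ 2 ≤ q - q ^ 2 := by
      have hsq : q ^ 2 ≤ (t + 2 * t ^ 2) ^ 2 := pow_le_pow_left₀ (by linarith) hq2 2
      have h3 : 24 * t ^ 3 ≤ a * t ^ 2 := by
        have := mul_le_mul_of_nonneg_right ht (sq_nonneg t)
        linarith
      have h4 : t ^ 4 ≤ 1 / 24 * t ^ 3 := by
        rw [pow_succ, mul_comm]
        exact mul_le_mul_of_nonneg_right (by linarith) (pow_nonneg ht0.le 3)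
      linarith [pow_nonneg ht0.le 3]
    have h2 := mul_le_mul_of_nonneg_left (h1.trans hmono) hD0.le
    have e' : (D : ℝ) * (t + a / 4 * t ^ 2) = 1 + a / (4 * D) := by
      rw [htdef]; field_simp
    rw [e'] at h2
    linarith

lemma walkCount_cycle_le {D : ℕ} {K : ℝ} (hK : 0 ≤ K) (hm : Moments H D K) (v : W) {m : ℕ}
    (hm20 : m ≤ 20) : walkCount H v m v ≤ K * Real.sqrt D ^ m := by
  obtain ⟨i, j, rfl, hi, hj⟩ : ∃ i j, i + j = m ∧ i ≤ 10 ∧ j ≤ 10 :=
    ⟨m / 2, m - m / 2, by omega, by omega, by omega⟩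
  refine (walkCount_add_le v v i j).trans ?_
  refine (mul_le_mul (Real.sqrt_le_sqrt (hm v i hi)) (Real.sqrt_le_sqrt (hm v j hj))
    (Real.sqrt_nonneg _) (Real.sqrt_nonneg _)).trans (le_of_eq ?_)
  rw [Real.sqrt_mul hK, Real.sqrt_mul hK, ← Real.sqrt_sq (Nat.cast_nonneg (α := ℝ) D)]
  have e : ∀ n : ℕ, Real.sqrt (Real.sqrt ((D : ℝ) ^ 2) ^ n) = Real.sqrt D ^ n := fun n => by
    rw [Real.sqrt_sq (Nat.cast_nonneg _), Real.sqrt_eq_iff_eq_sq (by positivity) (by positivity),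
      ← pow_mul, mul_comm n 2, pow_mul, Real.sq_sqrt (Nat.cast_nonneg _)]
  rw [e, e, Real.sqrt_sq (Nat.cast_nonneg _), pow_add]
  calc Real.sqrt K * Real.sqrt D ^ i * (Real.sqrt K * Real.sqrt D ^ j)
      = (Real.sqrt K * Real.sqrt K) * (Real.sqrt D ^ i * Real.sqrt D ^ j) := by ring
    _ = _ := by rw [Real.mul_self_sqrt hK]

/-- The short cycles contribute little. -/
lemma cycle_sums {D : ℕ} {K a : ℝ} {p : unitInterval} (hK : 1 ≤ K) (hm : Moments H D K)
    (ha0 : 0 < a) (ha1 : a ≤ 1) (hD : 24 / a ≤ D) (hreg : ∀ x, (H.neighborFinset x).card = D)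
    (hf : Form H ((D : ℝ) - a)) (hp : (p : ℝ) = wt D (1 / ((D : ℝ) - a / 2))) (v : W) :
    ∃ (b₁ : W → ℝ) (b₂ : W → W → ℝ),
      (∀ w ∈ H.neighborFinset v, ∀ N,
        ∑ n ∈ Ico 2 N, pathCount H v n w * (p : ℝ) ^ n ≤ b₁ w) ∧
      (∀ w ∈ H.neighborFinset v, ∀ w' ∈ (H.neighborFinset v).erase w, ∀ N,
        ∑ n ∈ range N, pathCount H w' n w * (p : ℝ) ^ n * (n + 1) ≤ b₂ w w') ∧
      (p : ℝ) * ∑ w ∈ H.neighborFinset v, b₁ w
        + (p : ℝ) ^ 2 * ∑ w ∈ H.neighborFinset v, ∑ w' ∈ (H.neighborFinset v).erase w, b₂ w w'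
        ≤ 10 ^ 7 * K / a ^ 3 / ((D : ℝ) * Real.sqrt D) := by
  obtain ⟨hz0, hc0, hzc, hgap, hpD1, hpD2, -⟩ := numeric ha0 ha1 hD
  set z := 1 / ((D : ℝ) - a / 2) with hz
  set c := (D : ℝ) - a with hc
  have hDR : (24 : ℝ) ≤ D := le_trans (by rw [le_div_iff₀ ha0]; linarith) hD
  have hD0 : (0 : ℝ) < D := by linarith
  have hD1 : 1 ≤ D := by exact_mod_cast (le_trans (by norm_num) hDR : (1 : ℝ) ≤ D)
  have hp0 : (0 : ℝ) ≤ p := p.2.1
  set T : ℝ := 8 * (Real.sqrt K * 2 ^ 10) / a ^ 3 / (D : ℝ) ^ 2 with hTdef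
  have hT0 : 0 ≤ T := by positivity
  have htail : ∀ (x y : W) (s : Finset ℕ), (∀ n ∈ s, 10 ≤ n) →
      ∑ n ∈ s, pathCount H y n x * (p : ℝ) ^ n * (n + 1) ≤ T := by
    intro x y s hs
    set Q := Real.sqrt (walkCount H y (2 * 10) y) / c ^ 10 with hQ
    have hQ' : Q ≤ Real.sqrt K * 2 ^ 10 / (D : ℝ) ^ 5 := by
      rw [hQ, div_le_div_iff₀ (by positivity) (by positivity)]
      have h1 : Real.sqrt (walkCount H y (2 * 10) y) ≤ Real.sqrt K * (D : ℝ) ^ 5 := by
        refine (Real.sqrt_le_sqrt (hm y 10 le_rfl)).trans (le_of_eq ?_)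
        rw [Real.sqrt_mul (by linarith), show (D : ℝ) ^ 10 = ((D : ℝ) ^ 5) ^ 2 by ring,
          Real.sqrt_sq (by positivity)]
      have h2 : ((D : ℝ) / 2) ^ 10 ≤ c ^ 10 := pow_le_pow_left₀ (by positivity) (by linarith) 10
      calc Real.sqrt (walkCount H y (2 * 10) y) * (D : ℝ) ^ 5
          ≤ Real.sqrt K * (D : ℝ) ^ 5 * (D : ℝ) ^ 5 := mul_le_mul_of_nonneg_right h1 (by positivity)
        _ = Real.sqrt K * 2 ^ 10 * ((D : ℝ) / 2) ^ 10 := by ring
        _ ≤ _ := mul_le_mul_of_nonneg_left h2 (by positivity)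
    have hg : 0 < 1 - z * c := by linarith
    calc ∑ n ∈ s, pathCount H y n x * (p : ℝ) ^ n * (n + 1)
        ≤ ∑ n ∈ s, ((n : ℝ) + 1) * (z * c) ^ n * (Q / (1 - z * c)) := by
          refine sum_le_sum fun n hn => ?_
          have h := pathCount_tail hD1 hreg hz0 hc0 hzc hf y 10 n (hs n hn) x
          rw [hp, mul_comm (_ * _) ((n : ℝ) + 1), mul_assoc]
          refine mul_le_mul_of_nonneg_left (h.trans (le_of_eq ?_)) (by positivity)
          rw [hQ]; ring
      _ = (∑ n ∈ s, ((n : ℝ) + 1) * (z * c) ^ n) * (Q / (1 - z * c)) := by rw [sum_mul]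
      _ ≤ 1 / (1 - z * c) ^ 2 * ((Real.sqrt K * 2 ^ 10 / (D : ℝ) ^ 5) / (1 - z * c)) :=
          mul_le_mul (sum_succ_mul_pow_le (by positivity) hzc s)
            (div_le_div_of_nonneg_right hQ' hg.le) (by positivity) (by positivity)
      _ = Real.sqrt K * 2 ^ 10 / (D : ℝ) ^ 5 * (1 / (1 - z * c)) ^ 3 := by
          generalize 1 - z * c = g
          ring
      _ ≤ Real.sqrt K * 2 ^ 10 / (D : ℝ) ^ 5 * (2 * D / a) ^ 3 := by
          refine mul_le_mul_of_nonneg_left (pow_le_pow_left₀ (by positivity) ?_ 3) (by positivity)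
          rw [div_le_div_iff₀ hg ha0, one_mul]
          have := (div_le_iff₀ (by positivity)).1 hgap
          linarith
      _ = T := by rw [hTdef]; field_simp; ring
  have hsplit : ∀ (x y : W) (l N : ℕ), l ≤ 10 →
      ∑ n ∈ Ico l N, pathCount H y n x * (p : ℝ) ^ n * (n + 1)
        ≤ ∑ n ∈ Ico l 10, pathCount H y n x * (p : ℝ) ^ n * (n + 1) + T := by
    intro x y l N hl
    have h0 : ∀ n : ℕ, 0 ≤ pathCount H y n x * (p : ℝ) ^ n * (n + 1) := fun n =>
      mul_nonneg (mul_nonneg (pathCount_nonneg y n x) (by positivity)) (by positivity)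
    refine (sum_le_sum_of_subset_of_nonneg (Ico_subset_Ico le_rfl (le_max_left N 10))
      fun n _ _ => h0 n).trans ?_
    rw [← sum_Ico_consecutive _ hl (le_max_right N 10)]
    exact add_le_add le_rfl (htail x y _ fun n hn => (mem_Ico.1 hn).1)
  refine ⟨fun w => ∑ n ∈ Ico 2 10, pathCount H v n w * (p : ℝ) ^ n * (n + 1) + T,
    fun w w' => ∑ n ∈ Ico 0 10, pathCount H w' n w * (p : ℝ) ^ n * (n + 1) + T,
    fun w _ N => ?_, fun w _ w' _ N => ?_, ?_⟩
  · by_cases hN : N ≤ 2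
    · rw [Ico_eq_empty (by omega), sum_empty]
      exact add_nonneg (sum_nonneg fun n _ => mul_nonneg (mul_nonneg (pathCount_nonneg v n w)
        (by positivity)) (by positivity)) hT0
    · refine le_trans (sum_le_sum fun n _ => ?_) (hsplit w v 2 N (by norm_num))
      exact le_mul_of_one_le_right (mul_nonneg (pathCount_nonneg v n w) (by positivity))
        (le_add_of_nonneg_left (Nat.cast_nonneg n))
  · rw [range_eq_Ico]; exact hsplit w w' 0 N (by norm_num)
  have hs : (0 : ℝ) < Real.sqrt D := Real.sqrt_pos.2 hD0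
  have hs1 : 1 ≤ Real.sqrt D := Real.one_le_sqrt.2 (by linarith)
  have hss : Real.sqrt D * Real.sqrt D = D := Real.mul_self_sqrt hD0.le
  set U : ℝ := K * 2 ^ 11 / ((D : ℝ) * Real.sqrt D) with hU
  have hcyc : ∀ m, 3 ≤ m → m ≤ 11 → (p : ℝ) ^ m * walkCount H v m v ≤ U := by
    intro m h3 h11
    have hpD : (p : ℝ) ≤ 2 / D := by rw [le_div_iff₀ hD0, hp]; exact hpD2
    calc (p : ℝ) ^ m * walkCount H v m v ≤ (2 / D) ^ m * (K * Real.sqrt D ^ m) :=
          mul_le_mul (pow_le_pow_left₀ hp0 hpD m) (walkCount_cycle_le (by linarith) hm v (by omega))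
            (walkCount_nonneg _ _ _) (by positivity)
      _ = K * 2 ^ m * (1 / Real.sqrt D) ^ m := by
          have : (2 / (D : ℝ)) * Real.sqrt D = 2 * (1 / Real.sqrt D) := by
            field_simp; linarith
          rw [mul_left_comm, ← mul_pow, this, mul_pow]; ring
      _ ≤ K * 2 ^ 11 * (1 / Real.sqrt D) ^ 3 := by
          refine mul_le_mul (mul_le_mul_of_nonneg_left (pow_le_pow_right₀ (by norm_num) h11)
            (by linarith)) (pow_le_pow_of_le_one (by positivity) ?_ h3) (by positivity) (by positivity)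
          rw [div_le_one hs]; exact hs1
      _ = U := by
          rw [hU, div_pow, one_pow, show Real.sqrt D ^ 3 = (D : ℝ) * Real.sqrt D by
            rw [pow_succ, sq, hss]]
          ring
  have hU0 : 0 ≤ U := by positivity
  have hfirst : (p : ℝ) * ∑ w ∈ H.neighborFinset v, ∑ n ∈ Ico 2 10,
      pathCount H v n w * (p : ℝ) ^ n * (n + 1) ≤ 8 * (10 * U) := by
    rw [sum_comm, mul_sum]
    refine (sum_le_card_nsmul _ _ (10 * U) fun n hn => ?_).trans (le_of_eq (by simp))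
    obtain ⟨h2, h10⟩ := mem_Ico.1 hn
    calc (p : ℝ) * ∑ w ∈ H.neighborFinset v, pathCount H v n w * (p : ℝ) ^ n * (n + 1)
        ≤ (p : ℝ) * ∑ w ∈ H.neighborFinset v, walkCount H v n w * (p : ℝ) ^ n * (n + 1) :=
          mul_le_mul_of_nonneg_left (sum_le_sum fun w _ => mul_le_mul_of_nonneg_right
            (mul_le_mul_of_nonneg_right (pathCount_le_walkCount v n w) (by positivity))
            (by positivity)) hp0
      _ = ((n : ℝ) + 1) * ((p : ℝ) ^ (n + 1) * walkCount H v (n + 1) v) := by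
          simp only [← sum_mul, ← walkCount_succ]; ring
      _ ≤ _ := mul_le_mul (by have : (n : ℝ) ≤ 9 := by exact_mod_cast (by omega : n ≤ 9)
                              linarith)
          (hcyc (n + 1) (by omega) (by omega))
          (mul_nonneg (by positivity) (walkCount_nonneg _ _ _)) (by norm_num)
  have hsecond : (p : ℝ) ^ 2 * ∑ w ∈ H.neighborFinset v, ∑ w' ∈ (H.neighborFinset v).erase w,
      ∑ n ∈ Ico 0 10, pathCount H w' n w * (p : ℝ) ^ n * (n + 1) ≤ 10 * (10 * U) := by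
    rw [sum_congr rfl fun w _ => sum_comm, sum_comm, mul_sum]
    refine (sum_le_card_nsmul _ _ (10 * U) fun n hn => ?_).trans (le_of_eq (by simp))
    obtain ⟨-, h10⟩ := mem_Ico.1 hn
    rcases Nat.eq_zero_or_pos n with rfl | hn0
    · rw [sum_eq_zero fun w hw => sum_eq_zero fun w' hw' => ?_]
      · rw [mul_zero]; positivity
      · have := (pathCount_le_walkCount (H := H) w' 0 w).trans_eq (walkCount_zero w w')
        rw [if_neg (mem_erase.1 hw').1.symm] at this
        rw [le_antisymm this (pathCount_nonneg w' 0 w)]; simp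
    · calc (p : ℝ) ^ 2 * ∑ w ∈ H.neighborFinset v, ∑ w' ∈ (H.neighborFinset v).erase w,
            pathCount H w' n w * (p : ℝ) ^ n * (n + 1)
          ≤ (p : ℝ) ^ 2 * ∑ w ∈ H.neighborFinset v, ∑ w' ∈ H.neighborFinset v,
              walkCount H w n w' * (p : ℝ) ^ n * (n + 1) := by
            refine mul_le_mul_of_nonneg_left (sum_le_sum fun w _ => le_trans (sum_le_sum fun w' _ => ?_)
              (sum_le_sum_of_subset_of_nonneg (erase_subset _ _) fun w' _ _ =>
                mul_nonneg (mul_nonneg (walkCount_nonneg _ _ _) (by positivity)) (by positivity)))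
              (by positivity)
            rw [← walkCount_comm w' n w]
            exact mul_le_mul_of_nonneg_right
              (mul_le_mul_of_nonneg_right (pathCount_le_walkCount w' n w) (by positivity))
              (by positivity)
        _ = ((n : ℝ) + 1) * ((p : ℝ) ^ (n + 2) * walkCount H v (n + 2) v) := by
            have hwc : ∑ w ∈ H.neighborFinset v, ∑ w' ∈ H.neighborFinset v, walkCount H w n w'
                = walkCount H v (n + 2) v := by
              rw [show n + 2 = n + 1 + 1 from rfl, walkCount_succ v (n + 1) v]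
              refine sum_congr rfl fun w _ => ?_
              rw [walkCount_comm v (n + 1) w, walkCount_succ]
            simp only [← sum_mul]
            rw [hwc]
            ring
        _ ≤ _ := mul_le_mul (by have : (n : ℝ) ≤ 9 := by exact_mod_cast (by omega : n ≤ 9)
                                linarith)
            (hcyc (n + 2) (by omega) (by omega))
            (mul_nonneg (by positivity) (walkCount_nonneg _ _ _)) (by norm_num)
  have hN1 : (p : ℝ) * (D * T) ≤ 2 * T := by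
    rw [← mul_assoc, hp]; exact mul_le_mul_of_nonneg_right hpD2 hT0
  have hN2 : (p : ℝ) ^ 2 * (D * (D * T)) ≤ 4 * T := by
    rw [show (p : ℝ) ^ 2 * (D * (D * T)) = ((p : ℝ) * D) ^ 2 * T by ring]
    refine mul_le_mul_of_nonneg_right ?_ hT0
    rw [hp] at hp0 ⊢
    nlinarith
  have hrest : ∑ w ∈ H.neighborFinset v, ∑ _w' ∈ (H.neighborFinset v).erase w, T ≤ D * (D * T) := by
    refine (sum_le_card_nsmul _ _ (D * T) fun w _ => ?_).trans (le_of_eq (by rw [hreg, nsmul_eq_mul]))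
    rw [sum_const, nsmul_eq_mul]
    exact mul_le_mul_of_nonneg_right
      (by exact_mod_cast (card_erase_le.trans (hreg v).le)) hT0
  have hrest' := mul_le_mul_of_nonneg_left hrest (sq_nonneg (p : ℝ))
  have hTU : T ≤ 8 * K * 2 ^ 10 / a ^ 3 / ((D : ℝ) * Real.sqrt D) := by
    rw [hTdef]
    refine div_le_div₀ (by positivity) ?_ (by positivity) ?_
    · refine div_le_div_of_nonneg_right ?_ (by positivity)
      have : Real.sqrt K ≤ K := by rw [Real.sqrt_le_iff]; exact ⟨by linarith, by nlinarith⟩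
      linarith
    · rw [sq]; exact mul_le_mul_of_nonneg_left (Real.sqrt_le_iff.2 ⟨hD0.le, by nlinarith⟩) hD0.le
  have hUa : U ≤ K * 2 ^ 11 / a ^ 3 / ((D : ℝ) * Real.sqrt D) := by
    rw [hU]
    refine div_le_div_of_nonneg_right (le_div_iff₀ (by positivity) |>.2 ?_) (by positivity)
    exact mul_le_of_le_one_right (by positivity) (pow_le_one₀ ha0.le ha1)
  rw [sum_add_distrib, sum_congr rfl fun w _ => sum_add_distrib, sum_add_distrib, sum_const, hreg,
    nsmul_eq_mul, mul_add, mul_add]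
  set V := K / a ^ 3 / ((D : ℝ) * Real.sqrt D) with hV
  have hV0 : 0 ≤ V := by positivity
  have e1 : T ≤ 8 * 2 ^ 10 * V := hTU.trans (le_of_eq (by rw [hV]; ring))
  have e2 : U ≤ 2 ^ 11 * V := hUa.trans (le_of_eq (by rw [hV]; ring))
  rw [show (10 : ℝ) ^ 7 * K / a ^ 3 / ((D : ℝ) * Real.sqrt D) = 10 ^ 7 * V by rw [hV]; ring]
  linarith

/-- Nonuniqueness phase for large degree. -/
theorem criterion {a K B : ℝ} (ha0 : 0 < a) (hK : 1 ≤ K) (hB : 1 ≤ B) :
    ∃ D₀ : ℕ, ∀ {W : Type} [Countable W] [Nonempty W] [DecidableEq W] (H : SimpleGraph W)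
      [H.LocallyFinite] (D : ℕ), D₀ ≤ D → (∀ x, (H.neighborFinset x).card = D) →
      Form H ((D : ℝ) - a) → Moments H D K → (∃ R : Finset W, ∀ v, ∃ r ∈ R, ∃ φ : H ≃g H, φ r = v) →
      Comparable H D B → (∀ x : W, {z | ∃ φ : H ≃g H, φ x = z}.Infinite) → pc H < pu H := by
  set a' := min a 1 with ha'
  have ha'0 : 0 < a' := lt_min ha0 one_pos
  set C := 10 ^ 7 * K / a' ^ 3 with hC
  obtain ⟨D₀, hD₀⟩ := exists_nat_ge (max (24 / a') ((8 * B * C / a') ^ 2 + (2 * B * C) ^ 2 + 1))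
  refine ⟨D₀, fun {W} _ _ _ H _ D hD hreg hform hm ⟨R, hR⟩ hcomp horb => ?_⟩
  classical
  have hDR : max (24 / a') ((8 * B * C / a') ^ 2 + (2 * B * C) ^ 2 + 1) ≤ D :=
    hD₀.trans (Nat.cast_le.2 hD)
  obtain ⟨hD24, hDsq⟩ := max_le_iff.1 hDR
  have ha'1 : a' ≤ 1 := min_le_right _ _
  have hf : Form H ((D : ℝ) - a') := hform.mono (by linarith [min_le_left a 1])
  obtain ⟨hz0, hc0, hzc, hgap, hpD1, hpD2, hmarg⟩ := numeric ha'0 ha'1 hD24
  have hD0 : (0 : ℝ) < D := lt_of_lt_of_le (by positivity) hD24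
  have hD24' : (24 : ℝ) ≤ D := le_trans (by rw [le_div_iff₀ ha'0]; linarith) hD24
  have hDnat : 1 ≤ D := by exact_mod_cast (le_trans (by norm_num) hD24' : (1 : ℝ) ≤ D)
  set z := 1 / ((D : ℝ) - a' / 2) with hz
  have hp1 : wt D z ≤ 1 / 2 := by
    rw [le_div_iff₀ (by norm_num : (0 : ℝ) < 2)]; nlinarith
  have hpp0 : 0 < wt D z := pos_of_mul_pos_left (by linarith) hD0.le
  let p : unitInterval := ⟨wt D z, hpp0.le, by linarith⟩
  -- the larger parameter
  set c := (D : ℝ) - a' with hc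
  set z₂ := 1 / ((D : ℝ) - 3 * a' / 4) with hz2
  have hden2 : 0 < (D : ℝ) - 3 * a' / 4 := by linarith
  have hz20 : 0 ≤ z₂ := (div_pos one_pos hden2).le
  have hzz : z < z₂ := one_div_lt_one_div_of_lt hden2 (by linarith)
  have ht1 : z₂ * c < 1 := by
    rw [hz2, one_div_mul_eq_div, div_lt_one hden2, hc]; linarith
  have ht0 : 0 ≤ z₂ * c := mul_nonneg hz20 hc0.le
  have hD1 : (1 : ℝ) ≤ (D : ℝ) := by linarith
  have hwlt : wt D z < wt D z₂ := add_lt_add_of_lt_of_le hzz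
    (mul_le_mul_of_nonneg_left (pow_le_pow_left₀ hz0 hzz.le 3) (by linarith))
  have hw1 : wt D z₂ ≤ 1 := by
    have h2 : z₂ ≤ 2 / (D : ℝ) := by
      rw [hz2, div_le_div_iff₀ hden2 hD0]; linarith
    have h3 : z₂ ^ 3 ≤ (2 / (D : ℝ)) ^ 3 := pow_le_pow_left₀ hz20 h2 3
    have h4 : ((D : ℝ) - 1) * z₂ ^ 3 ≤ D * (2 / (D : ℝ)) ^ 3 :=
      mul_le_mul (by linarith) h3 (by positivity) hD0.le
    have h5 : (D : ℝ) * (2 / (D : ℝ)) ^ 3 = 2 * (2 / (D : ℝ)) ^ 2 := by field_simp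
    have h6 : 2 / (D : ℝ) ≤ 1 / 12 := by rw [div_le_div_iff₀ hD0 (by norm_num)]; linarith
    have h7 : (2 / (D : ℝ)) ^ 2 ≤ (1 / 12) ^ 2 := pow_le_pow_left₀ (by positivity) h6 2
    unfold wt
    linarith
  have hpu : wt D z₂ ≤ pu H := by
    refine le_csInf (Set.insert_nonempty _ _) ?_
    rintro x (rfl | ⟨y, hy, rfl⟩)
    · exact hw1
    by_contra hlt
    rw [not_le] at hlt
    refine not_unique (H := H) (p := y) (C := 1 / (1 - z₂ * c) ^ 2) (by positivity) ht0 ht1
      (fun u v L hL => ?_) horb hy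
    let G : H.Walk u v → Unit → Set (Sym2 W → Bool) := fun _ _ => Set.univ
    have hG : ∀ q : H.Walk u v, q.IsPath → ∑ i ∈ ({()} : Finset Unit),
        (perc W y).real (allOpen q.edges.toFinset ∩ G q i) ≤ (y : ℝ) ^ q.length * 1 := fun q hq => by
      simp [G, real_allOpen, List.toFinset_card_of_nodup hq.isTrail.edges_nodup]
    have hB' : ∀ N, ∑ n ∈ Ico L N, pathCount H v n u * ((y : ℝ) ^ n * 1)
        ≤ 1 / (1 - z₂ * c) ^ 2 * (z₂ * c) ^ L := by
      intro N
      have hg : 0 < 1 - z₂ * c := by linarith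
      calc ∑ n ∈ Ico L N, pathCount H v n u * ((y : ℝ) ^ n * 1)
          ≤ ∑ n ∈ Ico L N, (z₂ * c) ^ n / (1 - z₂ * c) := by
            refine sum_le_sum fun n _ => ?_
            rw [mul_one]
            refine (mul_le_mul_of_nonneg_left (pow_le_pow_left₀ y.2.1 hlt.le n)
              (pathCount_nonneg v n u)).trans ?_
            refine (pathCount_tail hDnat hreg hz20 hc0 ht1 hf v 0 n (Nat.zero_le n) u).trans
              (le_of_eq ?_)
            simp [walkCount_zero]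
        _ ≤ (z₂ * c) ^ L / (1 - z₂ * c) / (1 - z₂ * c) := by
            rw [← sum_div]
            exact div_le_div_of_nonneg_right (geom_sum_Ico_le_of_lt_one ht0 ht1) hg.le
        _ = _ := by field_simp
    refine le_trans ?_ (sum_paths_le u v L ({()} : Finset Unit) G (fun _ => 1) hG hB')
    rw [sum_singleton]
    refine measureReal_mono fun ω hω => ?_
    obtain ⟨q, hq, hqo⟩ := exists_path_of_mem_conn hω
    exact ⟨q, hq, (hL q).le, hqo, trivial⟩
  refine lt_of_le_of_lt ?_ (lt_of_lt_of_le hwlt hpu)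
  by_contra hpc
  rw [not_le] at hpc
  obtain ⟨M, hM⟩ := Product.susceptibility_bound (H := H) (p := p) ⟨R, fun v => by
    obtain ⟨r, hr, φ, hφ⟩ := hR v
    exact ⟨φ.symm, by rw [← hφ, φ.symm_apply_apply]; exact hr⟩⟩ hpc
  set f : W → ℝ := fun v => ⨆ T : Finset W, vol H p T v with hfdef
  have hbdd : ∀ v, BddAbove (Set.range fun T : Finset W => vol H p T v) := fun v =>
    ⟨M, by rintro _ ⟨T, rfl⟩; exact hM v T⟩
  have hle : ∀ T v, vol H p T v ≤ f v := fun T v => le_ciSup (hbdd v) T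
  have hf0 : ∀ v, 0 ≤ f v := fun v => le_trans (by simp [vol]) (hle ∅ v)
  have hmap : ∀ (φ : H ≃g H) v, f v ≤ f (φ v) := by
    intro φ v
    refine ciSup_le fun T => le_trans (le_of_eq ?_) (hle (T.map φ.toEquiv.toEmbedding) (φ v))
    simp only [vol, sum_map]
    exact sum_congr rfl fun y _ => (conn_map φ v y).symm
  have hinv : ∀ (φ : H ≃g H) v, f (φ v) = f v := fun φ v =>
    le_antisymm (by simpa using hmap φ.symm (φ v)) (hmap φ v)
  have hRne : R.Nonempty := by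
    obtain ⟨r, hr, -⟩ := hR (Classical.arbitrary W)
    exact ⟨r, hr⟩
  obtain ⟨u₀, -, hu₀⟩ := R.exists_max_image f hRne
  obtain ⟨v₀, -, hv₀⟩ := R.exists_min_image f hRne
  have hmax : ∀ v, f v ≤ f u₀ := fun v => by
    obtain ⟨r, hr, φ, rfl⟩ := hR v
    rw [hinv]; exact hu₀ r hr
  have hmin : ∀ v, f v₀ ≤ f v := fun v => by
    obtain ⟨r, hr, φ, rfl⟩ := hR v
    rw [hinv]; exact hv₀ r hr
  set ε := C / ((D : ℝ) * Real.sqrt D) with hε
  have hC0 : 0 ≤ C := by positivity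
  have hε0 : 0 ≤ ε := by positivity
  have hineq : ∀ v, 1 + (p : ℝ) * ∑ w ∈ H.neighborFinset v, f w
      ≤ (1 + D * (p : ℝ) ^ 2) * f v + ε * f u₀ := by
    intro v
    refine le_of_forall_pos_le_add fun η hη => ?_
    have hT : ∀ w, ∃ T : Finset W, f w - η / 2 < vol H p T w := fun w =>
      exists_lt_of_lt_ciSup (show f w - η / 2 < ⨆ T : Finset W, vol H p T w by
        show f w - η / 2 < f w
        linarith)
    choose T hT using hT
    set Λ := insert v ((H.neighborFinset v).biUnion T) with hΛ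
    obtain ⟨b₁, b₂, hb1, hb2, hb⟩ := cycle_sums hK hm ha'0 ha'1 hD24 hreg hf (p := p) rfl v
    have h := vol_ineq hreg v _ _ (f u₀) b₁ b₂ (hf0 u₀) hb1 le_rfl hb2 le_rfl Λ
      (fun u => (hle Λ u).trans (hmax u)) (mem_insert_self _ _)
    have h1 := mul_le_mul_of_nonneg_right hb (hf0 u₀)
    rw [← hC, ← hε] at h1
    have h2 : ∑ w ∈ H.neighborFinset v, f w
        ≤ ∑ w ∈ H.neighborFinset v, vol H p Λ w + D * (η / 2) := by
      refine le_trans (sum_le_sum (g := fun w => vol H p Λ w + η / 2) fun w hw => ?_) ?_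
      · have := vol_mono (H := H) (p := p) (show T w ⊆ Λ from
          (subset_biUnion_of_mem T hw).trans (subset_insert _ _)) w
        have h0 := hT w
        linarith
      · rw [sum_add_distrib, sum_const, hreg, nsmul_eq_mul]
    have h3 : (p : ℝ) * ((D : ℝ) * (η / 2)) ≤ η := by
      rw [← mul_assoc]
      exact (mul_le_mul_of_nonneg_right hpD2 (by linarith)).trans (by linarith)
    have h4 := mul_le_mul_of_nonneg_left (hle Λ v) (show 0 ≤ 1 + (D : ℝ) * (p : ℝ) ^ 2 by positivity)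
    have h5 := mul_le_mul_of_nonneg_left h2 p.2.1
    linarith
  have hεD : B * (ε * D) ≤ 1 / 2 ∧ 2 * B * ε ≤ a' / (4 * D) := by
    have hs : (0 : ℝ) < Real.sqrt D := Real.sqrt_pos.2 hD0
    have h1 : 8 * B * C / a' ≤ Real.sqrt D := by
      rw [Real.le_sqrt (by positivity) hD0.le]; linarith [sq_nonneg (2 * B * C)]
    have h2 : 2 * B * C ≤ Real.sqrt D := by
      rw [Real.le_sqrt (by positivity) hD0.le]; linarith [sq_nonneg (8 * B * C / a')]
    have e : ε * D = C / Real.sqrt D := by rw [hε]; field_simp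
    constructor
    · rw [e, ← mul_div_assoc, div_le_div_iff₀ hs (by norm_num)]; linarith
    · rw [div_le_iff₀ ha'0] at h1
      rw [hε, ← mul_div_assoc, div_le_div_iff₀ (by positivity) (by positivity)]
      nlinarith [mul_le_mul_of_nonneg_right h1 hD0.le]
  have hXB : f u₀ ≤ 2 * B * f v₀ := by
    have h := hcomp (p : ℝ) ε (f u₀) f hpD1 hpD2 hε0 hf0 hmax hinv hineq u₀ v₀
    have h2 := mul_le_mul_of_nonneg_left hεD.1 (hf0 u₀)
    linarith
  have h := hineq v₀
  have h1 : (D : ℝ) * f v₀ ≤ ∑ w ∈ H.neighborFinset v₀, f w := by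
    rw [← hreg v₀, ← nsmul_eq_mul]
    exact card_nsmul_le_sum _ _ _ fun w _ => hmin w
  have h2 := mul_le_mul_of_nonneg_left h1 p.2.1
  have h3 := mul_le_mul_of_nonneg_left hXB hε0
  have h4 := mul_le_mul_of_nonneg_right hεD.2 (hf0 v₀)
  have h5 := mul_le_mul_of_nonneg_right hmarg (hf0 v₀)
  change 1 + wt D z * _ ≤ (1 + D * wt D z ^ 2) * _ + _ at h
  change wt D z * _ ≤ wt D z * _ at h2
  linarith

end Vale.Agent.P165.Sus
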