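import Mathlib
import Vale.Agent.P165.Sus.Criterion

/-!
The two applications of the criterion: transitive graphs, and products with large powers.
-/

namespace Vale.Agent.P165.Sus

open MeasureTheory Finset

section Quad

variable {W : Type} {H : SimpleGraph W} [H.LocallyFinite] [DecidableEq W]

/-- The adjacency quadratic form. -/
def quad (H : SimpleGraph W) [H.LocallyFinite] (S : Finset W) (u : W → ℝ) : ℝ :=
  ∑ x ∈ S, u x * ∑ w ∈ H.neighborFinset x, u w

lemma sum_adj_eq_quad {S T : Finset W} (h : Inside H S T) {u : W → ℝ} (hu : ∀ x ∉ S, u x = 0) :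
    ∑ x ∈ T, ∑ z ∈ T, adjW H x z * (u x * u z) = quad H S u := by
  rw [quad, ← sum_subset h.1 fun x _ hx => by simp [hu x hx]]
  refine sum_congr rfl fun x hx => ?_
  rw [sum_adjW h hx fun z => u x * u z, mul_sum]

omit [DecidableEq W] in
lemma form_of_quad {c : ℝ}
    (h : ∀ (S : Finset W) (u : W → ℝ), (∀ x ∉ S, u x = 0) → quad H S u ≤ c * ∑ x ∈ S, u x ^ 2) :
    Form H c := by
  classical
  intro S T hin u hu
  rw [sum_adj_eq_quad hin hu, ← sum_subset hin.1 fun x _ hx => by simp [hu x hx]]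
  have h' := h S (fun x => |u x|) fun x hx => by simp [hu x hx]
  simp only [sq_abs] at h'
  refine le_trans ?_ h'
  refine (abs_sum_le_sum_abs _ _).trans (sum_le_sum fun x _ => ?_)
  rw [abs_mul]
  exact mul_le_mul_of_nonneg_left (abs_sum_le_sum_abs _ _) (abs_nonneg _)

lemma quad_le {D : ℕ} {hE : ℝ} (hE0 : 0 ≤ hE) (hreg : ∀ x, (H.neighborFinset x).card = D)
    (hiso : ∀ S : Finset W, hE * S.card ≤ ∑ x ∈ S, ((H.neighborFinset x \ S).card : ℝ))
    (S : Finset W) (u : W → ℝ) (hu : ∀ x ∉ S, u x = 0) :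
    quad H S u ≤ Real.sqrt ((D : ℝ) ^ 2 - hE ^ 2) * ∑ x ∈ S, u x ^ 2 := by
  set T := S ∪ S.biUnion (H.neighborFinset ·) with hT
  have hin : Inside H S T := ⟨subset_union_left, fun x hx => (subset_biUnion_of_mem
    (H.neighborFinset ·) hx).trans subset_union_right⟩
  have h := (le_abs_self _).trans (form_bound hE0 hreg hiso hin u hu)
  rwa [sum_adj_eq_quad hin hu, ← sum_subset hin.1 fun x _ hx => by simp [hu x hx]] at h

end Quad

/-- The criterion on transitive graphs. -/
theorem transitive_criterion {a K : ℝ} (ha : 0 < a) :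
    ∃ D₀ : ℕ, ∀ (V : Type) (G : SimpleGraph V) [G.LocallyFinite] (D : ℕ), D₀ ≤ D →
      Infinite V → G.Connected → (∀ x y : V, ∃ φ : G ≃g G, φ x = y) → (∀ x, G.degree x = D) →
      (∀ (S : Finset V) (u : V → ℝ), (∀ x ∉ S, u x = 0) →
        ∑ x ∈ S, u x * ∑ w ∈ G.neighborFinset x, u w ≤ ((D : ℝ) - a) * ∑ x ∈ S, u x ^ 2) →
      (∀ [DecidableEq V] (x : V), ∀ j ≤ 10,
        ((G.finsetWalkLength (2 * j) x x).card : ℝ) ≤ K * (D : ℝ) ^ j) →
      pc G < pu G := by
  obtain ⟨D₀, hD₀⟩ := criterion (a := a) (K := max K 1) (B := 1) ha (le_max_right _ _) le_rfl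
  refine ⟨D₀, fun V G _ D hD hV hc htr hreg hform hm => ?_⟩
  classical
  haveI := hV
  haveI : Countable V := countable_of_connected hc
  haveI : Nonempty V := hc.nonempty
  obtain ⟨o⟩ := hc.nonempty
  have hqt : ∃ R : Finset V, ∀ v, ∃ r ∈ R, ∃ φ : G ≃g G, φ r = v :=
    ⟨{o}, fun v => ⟨o, mem_singleton_self o, htr o v⟩⟩
  refine hD₀ G D hD (fun x => by rw [SimpleGraph.card_neighborFinset_eq_degree, hreg])
    (form_of_quad hform) (fun v j hj => (hm v j hj).trans
      (mul_le_mul_of_nonneg_right (le_max_left _ _) (by positivity))) hqt ?_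
    (fun x => orbit_infinite hc hqt x)
  intro p ε X f _ _ hε hf hX hinv _ u v
  obtain ⟨φ, rfl⟩ := htr v u
  rw [hinv, one_mul]
  exact le_add_of_nonneg_right (mul_nonneg (mul_nonneg ((hf v).trans (hX v)) hε) (Nat.cast_nonneg D))

section Product

variable {V U : Type} {G : SimpleGraph V} {H : SimpleGraph U} [G.LocallyFinite] [H.LocallyFinite]
variable {k : ℕ}

noncomputable instance prodLocallyFinite :
    (G.boxProd (powGraph H (Fin k))).LocallyFinite := fun _ => inferInstance

lemma sum_prod_neighbors (x : V × (Fin k → U)) (g : V × (Fin k → U) → ℝ) :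
    ∑ z ∈ (G.boxProd (powGraph H (Fin k))).neighborFinset x, g z
      = ∑ w ∈ G.neighborFinset x.1, g (w, x.2)
        + ∑ b ∈ (powGraph H (Fin k)).neighborFinset x.2, g (x.1, b) := by
  rw [SimpleGraph.neighborFinset_boxProd, sum_disjUnion, sum_product, sum_product]
  simp

variable [DecidableEq U] {d e : ℕ}

lemma prod_degree (hd : ∀ v, (G.neighborFinset v).card = d) (he : ∀ u, (H.neighborFinset u).card = e)
    (x : V × (Fin k → U)) :
    ((G.boxProd (powGraph H (Fin k))).neighborFinset x).card = d + k * e := by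
  rw [SimpleGraph.neighborFinset_boxProd, card_disjUnion, card_product, card_product, hd,
    pow_degree he]
  simp

lemma prod_quad_le [DecidableEq V] (hd : ∀ v, (G.neighborFinset v).card = d)
    (he : ∀ u, (H.neighborFinset u).card = e) {κ : ℝ} (hκ : 0 ≤ κ)
    (hiso : ∀ A : Finset V, κ * A.card ≤ ∑ x ∈ A, ((G.neighborFinset x \ A).card : ℝ))
    (S : Finset (V × (Fin k → U))) (u : V × (Fin k → U) → ℝ) (hu : ∀ x ∉ S, u x = 0) :
    quad (G.boxProd (powGraph H (Fin k))) S u
      ≤ (Real.sqrt ((d : ℝ) ^ 2 - κ ^ 2) + (k : ℝ) * e) * ∑ x ∈ S, u x ^ 2 := by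
  set c := Real.sqrt ((d : ℝ) ^ 2 - κ ^ 2) with hc
  simp only [quad, sum_prod_neighbors, mul_add, sum_add_distrib, add_mul]
  set S₁ := S.image Prod.fst with hS₁
  set S₂ := S.image Prod.snd with hS₂
  have hsub : S ⊆ S₁ ×ˢ S₂ := fun x hx =>
    mem_product.2 ⟨mem_image_of_mem _ hx, mem_image_of_mem _ hx⟩
  have hz : ∀ a b, (a ∉ S₁ ∨ b ∉ S₂) → u (a, b) = 0 := fun a b h => hu _ fun h' => by
    obtain ⟨h1, h2⟩ := mem_product.1 (hsub h'); tauto
  rw [sum_subset hsub fun x _ hx => by simp [hu x hx], sum_subset hsub fun x _ hx => by simp [hu x hx],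
    sum_subset hsub fun x _ hx => by simp [hu x hx]]
  refine add_le_add ?_ ?_
  · rw [sum_product_right, sum_product_right, mul_sum]
    refine sum_le_sum fun b _ => ?_
    exact quad_le hκ hd hiso S₁ (fun a => u (a, b)) fun a ha => hz a b (Or.inl ha)
  · rw [sum_product, sum_product, mul_sum]
    refine sum_le_sum fun a _ => (quad_le le_rfl (D := k * e) (fun b => ?_) (fun T => ?_) S₂
      (fun b => u (a, b)) fun b hb => hz a b (Or.inr hb)).trans (le_of_eq ?_)
    · rw [pow_degree he, Fintype.card_fin]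
    · rw [zero_mul]; exact sum_nonneg fun _ _ => Nat.cast_nonneg _
    · rw [Nat.cast_mul]
      norm_num [Real.sqrt_sq (show (0 : ℝ) ≤ k * e by positivity)]

/-- Number of coordinates in which two tuples differ. -/
def hdist (x y : Fin k → U) : ℕ := (univ.filter fun i => x i ≠ y i).card

lemma prod_walks [DecidableEq V] (hd : ∀ v, (G.neighborFinset v).card = d)
    (he : ∀ u, (H.neighborFinset u).card = e) (hk : 1 ≤ k) (y : V × (Fin k → U)) :
    ∀ n ≤ 20, ∀ x : V × (Fin k → U),
      (walkCount (G.boxProd (powGraph H (Fin k))) y n x * Real.sqrt k ^ hdist x.2 y.2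
          ≤ (((d : ℝ) + 23 * e) * Real.sqrt k) ^ n) ∧
        (n < hdist x.2 y.2 → walkCount (G.boxProd (powGraph H (Fin k))) y n x = 0) := by
  intro n
  induction n with
  | zero =>
    intro _ x
    rw [walkCount_zero]
    by_cases h : x = y
    · subst h; simp [hdist]
    · simp [h]
  | succ n ih =>
    intro hn x
    have ih := ih (by omega)
    set s := Real.sqrt k with hs
    have hk1 : (1 : ℝ) ≤ k := Nat.one_le_cast.2 hk
    have hs1 : 1 ≤ s := Real.one_le_sqrt.2 hk1
    have hss : s * s = k := Real.mul_self_sqrt (by linarith)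
    set L : ℝ := (d : ℝ) + 23 * e with hL
    set P := G.boxProd (powGraph H (Fin k)) with hP
    set m := hdist x.2 y.2 with hm
    -- one changed coordinate
    have hupd : ∀ i, ∀ w ∈ H.neighborFinset (x.2 i),
        (x.2 i ≠ y.2 i → m ≤ hdist (Function.update x.2 i w) y.2 + 1) ∧
        (x.2 i = y.2 i → hdist (Function.update x.2 i w) y.2 = m + 1) := by
      intro i w hw
      constructor
      · intro _
        refine (card_le_card (t := insert i
          (univ.filter fun j => Function.update x.2 i w j ≠ y.2 j)) fun j hj => ?_).trans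
          (card_insert_le _ _)
        by_cases hji : j = i
        · simp [hji]
        · simpa [hji] using hj
      · intro hi
        have hwi : w ≠ y.2 i := hi ▸ ((SimpleGraph.mem_neighborFinset _ _ _).1 hw).ne'
        rw [hm, hdist, hdist, ← card_insert_of_notMem (a := i) (by simp [hi])]
        congr 1
        ext j
        by_cases hji : j = i
        · subst hji; simp [hwi]
        · simp [hji]
    have hrec : walkCount P y (n + 1) x
        = ∑ w ∈ G.neighborFinset x.1, walkCount P y n (w, x.2)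
          + ∑ i, ∑ w ∈ H.neighborFinset (x.2 i), walkCount P y n (x.1, Function.update x.2 i w) := by
      rw [walkCount_succ]
      refine (sum_prod_neighbors x _).trans ?_
      rw [pow_neighborFinset, sum_biUnion (pow_pieces_disjoint _)]
      congr 1
      exact sum_congr rfl fun i _ => sum_image fun a _ b _ h => Function.update_injective x.2 i h
    have hzero : n + 1 < m → walkCount P y (n + 1) x = 0 := by
      intro h
      rw [hrec, sum_eq_zero fun w _ => (ih (w, x.2)).2 (show n < hdist x.2 y.2 by omega), zero_add]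
      refine sum_eq_zero fun i _ => sum_eq_zero fun w hw => (ih _).2 ?_
      show n < hdist (Function.update x.2 i w) y.2
      by_cases hi : x.2 i = y.2 i
      · have := (hupd i w hw).2 hi; omega
      · have := (hupd i w hw).1 hi; omega
    refine ⟨?_, hzero⟩
    rcases lt_or_ge (n + 1) m with h | h
    · rw [hzero h, zero_mul]; positivity
    set C := (L * s) ^ n with hC
    have hC0 : 0 ≤ C := by positivity
    have h1 : ∑ w ∈ G.neighborFinset x.1, walkCount P y n (w, x.2) * s ^ m ≤ (d : ℝ) * (C * s) := by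
      rw [← hd x.1, ← nsmul_eq_mul]
      exact sum_le_card_nsmul _ _ _ fun w _ => ((ih (w, x.2)).1).trans
        (le_mul_of_one_le_right hC0 hs1)
    have h2 : ∀ i ∈ univ.filter (fun i => x.2 i ≠ y.2 i),
        ∑ w ∈ H.neighborFinset (x.2 i), walkCount P y n (x.1, Function.update x.2 i w) * s ^ m
          ≤ (e : ℝ) * (C * s) := by
      intro i hi
      rw [← he (x.2 i), ← nsmul_eq_mul]
      refine sum_le_card_nsmul _ _ _ fun w hw => ?_
      refine (mul_le_mul_of_nonneg_left (pow_le_pow_right₀ hs1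
        ((hupd i w hw).1 (mem_filter.1 hi).2)) (walkCount_nonneg _ _ _)).trans ?_
      rw [pow_succ, ← mul_assoc]
      exact mul_le_mul_of_nonneg_right (ih (x.1, Function.update x.2 i w)).1 (by linarith)
    have h3 : ∀ i ∈ univ.filter (fun i => ¬ x.2 i ≠ y.2 i),
        ∑ w ∈ H.neighborFinset (x.2 i), walkCount P y n (x.1, Function.update x.2 i w) * s ^ m
          ≤ (e : ℝ) * (C / s) := by
      intro i hi
      rw [← he (x.2 i), ← nsmul_eq_mul]
      refine sum_le_card_nsmul _ _ _ fun w hw => ?_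
      rw [le_div_iff₀ (by linarith), mul_assoc, ← pow_succ,
        ← (hupd i w hw).2 (not_not.1 (mem_filter.1 hi).2)]
      exact (ih (x.1, Function.update x.2 i w)).1
    rw [hrec, add_mul, sum_mul, sum_mul]
    simp only [sum_mul]
    rw [← sum_filter_add_sum_filter_not univ (fun i => x.2 i ≠ y.2 i)]
    refine (add_le_add h1 (add_le_add ((sum_le_card_nsmul _ _ _ h2).trans_eq (nsmul_eq_mul _ _))
      ((sum_le_card_nsmul _ _ _ h3).trans_eq (nsmul_eq_mul _ _)))).trans ?_
    have hm' : ((univ.filter fun i => x.2 i ≠ y.2 i).card : ℝ) ≤ 20 := by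
      have : (univ.filter fun i => x.2 i ≠ y.2 i).card ≤ 20 := show m ≤ 20 by omega
      exact_mod_cast this
    have hk' : ((univ.filter fun i => ¬ x.2 i ≠ y.2 i).card : ℝ) ≤ s * s := by
      rw [hss]; exact_mod_cast (card_filter_le _ _).trans_eq (card_fin k)
    have e3 : s * s * ((e : ℝ) * (C / s)) = (e : ℝ) * (C * s) := by field_simp
    have h5 := mul_le_mul_of_nonneg_right hm' (show 0 ≤ (e : ℝ) * (C * s) by positivity)
    have h6 := mul_le_mul_of_nonneg_right hk' (show 0 ≤ (e : ℝ) * (C / s) by positivity)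
    rw [e3] at h6
    have e4 : (L * s) ^ (n + 1) = (d : ℝ) * (C * s) + 23 * ((e : ℝ) * (C * s)) := by
      rw [pow_succ, ← hC, hL]; ring
    rw [e4]
    have : 0 ≤ (e : ℝ) * (C * s) := by positivity
    linarith

/-- Changing the coordinates in a transitive factor is an automorphism. -/
lemma exists_shift (htr : ∀ a b : U, ∃ φ : H ≃g H, φ a = b) (φ : G ≃g G) (v : V) (a b : Fin k → U) :
    ∃ ψ : G.boxProd (powGraph H (Fin k)) ≃g G.boxProd (powGraph H (Fin k)),
      ψ (v, a) = (φ v, b) := by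
  choose τ hτ using fun i => htr (a i) (b i)
  refine ⟨{ toEquiv := φ.toEquiv.prodCongr (Equiv.piCongrRight fun i => (τ i).toEquiv)
            map_rel_iff' := ?_ }, Prod.ext rfl (funext hτ)⟩
  intro x y
  simp only [SimpleGraph.boxProd_adj, powGraph, Equiv.prodCongr_apply, Prod.map, EmbeddingLike.apply_eq_iff_eq]
  refine or_congr (and_congr φ.map_adj_iff Iff.rfl) (and_congr ?_ Iff.rfl)
  refine exists_congr fun i => and_congr (τ i).map_adj_iff (forall_congr' fun j => imp_congr_right fun _ => ?_)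
  exact (τ j).injective.eq_iff

lemma prod_comparable [DecidableEq V] (hd : ∀ v, (G.neighborFinset v).card = d)
    (he : ∀ u, (H.neighborFinset u).card = e) (htr : ∀ a b : U, ∃ φ : H ≃g H, φ a = b)
    {R : Finset V} (hR : ∀ v, ∃ r ∈ R, ∃ φ : G ≃g G, φ r = v) {ℓ : ℕ}
    (hℓ : ∀ r ∈ R, ∀ r' ∈ R, ∃ q : G.Walk r r', q.length ≤ ℓ) :
    Comparable (G.boxProd (powGraph H (Fin k))) (d + k * e)
      (((d : ℝ) + 4) ^ ℓ * ((ℓ : ℝ) + 1)) := by
  intro p ε X f hp1 hp2 hε hf hX hinv hineq u v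
  set D : ℝ := ((d + k * e : ℕ) : ℝ) with hD
  set h₀ := u.2 with hh₀
  have hflat : ∀ g b, f (g, b) = f (g, h₀) := fun g b => by
    obtain ⟨ψ, hψ⟩ := exists_shift (G := G) htr (SimpleGraph.Iso.refl) g h₀ b
    rw [show (g, b) = ψ (g, h₀) from hψ.symm, hinv]
  have hG : ∀ (φ : G ≃g G) g, f (φ g, h₀) = f (g, h₀) := fun φ g => by
    obtain ⟨ψ, hψ⟩ := exists_shift htr φ g h₀ h₀
    rw [← hψ, hinv]
  have hX0 : 0 ≤ X := (hf u).trans (hX u)
  set E := X * ε * D with hE
  have hE0 : 0 ≤ E := by positivity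
  set L : ℝ := (d : ℝ) + 4 with hL
  have hL1 : 1 ≤ L := by rw [hL]; linarith [Nat.cast_nonneg (α := ℝ) d]
  have hD0 : 0 ≤ D := Nat.cast_nonneg _
  have hstep : ∀ g, ∀ w ∈ G.neighborFinset g, f (w, h₀) ≤ L * f (g, h₀) + E := by
    intro g w hw
    have h := hineq (g, h₀)
    rw [sum_prod_neighbors, sum_congr rfl fun b _ => hflat (g, h₀).1 b] at h
    simp only [sum_const, nsmul_eq_mul] at h
    rw [pow_degree he, Fintype.card_fin, Nat.cast_mul] at h
    set F := ∑ w ∈ G.neighborFinset g, f (w, h₀) with hF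
    have hF0 : 0 ≤ F := sum_nonneg fun _ _ => hf _
    have hw' : f (w, h₀) ≤ F := single_le_sum (f := fun w => f (w, h₀)) (fun _ _ => hf _) hw
    have hDe : D = (d : ℝ) + k * e := by rw [hD]; push_cast; ring
    have h1 : F ≤ p * D * F := le_mul_of_one_le_left hF0 hp1
    have h2 : (k : ℝ) * e * f (g, h₀) ≤ p * D * ((k : ℝ) * e * f (g, h₀)) :=
      le_mul_of_one_le_left (mul_nonneg (by positivity) (hf _)) hp1
    have h3 : (p * D) ^ 2 * f (g, h₀) ≤ 4 * f (g, h₀) := by
      refine mul_le_mul_of_nonneg_right ?_ (hf _)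
      calc (p * D) ^ 2 ≤ 2 ^ 2 := pow_le_pow_left₀ (by linarith) hp2 2
        _ = 4 := by norm_num
    have h4 := mul_le_mul_of_nonneg_left h hD0
    rw [hL, hE]
    rw [show (d : ℝ) = D - k * e by linarith]
    linarith
  have hwalk : ∀ {a b : V} (q : G.Walk a b),
      f (b, h₀) ≤ L ^ q.length * (f (a, h₀) + q.length * E) := by
    intro a b q
    induction q with
    | nil => simp
    | @cons a c b h q ih =>
      have h1 := hstep a c ((SimpleGraph.mem_neighborFinset _ _ _).2 h)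
      refine ih.trans ?_
      rw [SimpleGraph.Walk.length_cons, pow_succ, mul_assoc, Nat.cast_succ]
      refine mul_le_mul_of_nonneg_left ?_ (by positivity)
      have : (q.length : ℝ) * E ≤ L * ((q.length : ℝ) * E) := le_mul_of_one_le_left (by positivity) hL1
      have : E ≤ L * E := le_mul_of_one_le_left hE0 hL1
      linarith
  obtain ⟨g, a⟩ := u
  obtain ⟨g', b⟩ := v
  obtain ⟨r, hr, φ, rfl⟩ := hR g
  obtain ⟨r', hr', φ', rfl⟩ := hR g'
  obtain ⟨q, hq⟩ := hℓ r' hr' r hr
  rw [hflat (φ r) a, hflat (φ' r') b, hG, hG]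
  refine (hwalk q).trans ?_
  rw [mul_assoc]
  refine mul_le_mul (pow_le_pow_right₀ hL1 hq) ?_ (add_nonneg (hf _) (by positivity)) (by positivity)
  have hqE : (q.length : ℝ) * E ≤ ℓ * E := mul_le_mul_of_nonneg_right (Nat.cast_le.2 hq) hE0
  have : 0 ≤ (ℓ : ℝ) * f (r', h₀) := mul_nonneg (Nat.cast_nonneg _) (hf _)
  linarith

end Product

/-- Products with large powers of a transitive graph. -/
theorem product_nonuniqueness {V U : Type} [Infinite V] {G : SimpleGraph V} [G.LocallyFinite]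
    {H : SimpleGraph U} [H.LocallyFinite] {d e : ℕ} (hd : ∀ v, G.degree v = d) (hc : G.Connected)
    (hqt : ∃ R : Finset V, ∀ v, ∃ r ∈ R, ∃ φ : G ≃g G, φ r = v) {h : ℝ} (hh : 0 < h)
    (hiso : ∀ A : Finset V, h * A.card ≤ {v | v ∉ A ∧ ∃ a ∈ A, G.Adj a v}.ncard)
    (he : ∀ u, H.degree u = e) (he1 : 1 ≤ e) (hHc : H.Connected)
    (htr : ∀ a b : U, ∃ φ : H ≃g H, φ a = b) :
    ∃ k₀ : ℕ, ∀ k, k₀ ≤ k →
      pc (G.boxProd (powGraph H (Fin k))) < pu (G.boxProd (powGraph H (Fin k))) := by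
  classical
  obtain ⟨R, hR⟩ := hqt
  have hd' : ∀ v, (G.neighborFinset v).card = d := fun v => by
    rw [SimpleGraph.card_neighborFinset_eq_degree, hd]
  have he' : ∀ u, (H.neighborFinset u).card = e := fun u => by
    rw [SimpleGraph.card_neighborFinset_eq_degree, he]
  obtain ⟨o⟩ := hc.nonempty
  obtain ⟨u₀⟩ := hHc.nonempty
  have hdpos : 0 < d := by
    obtain ⟨v, hv⟩ := exists_ne o
    obtain ⟨q₀⟩ := hc.preconnected o v
    cases q₀ with
    | nil => exact absurd rfl hv
    | cons h' _ =>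
      rw [← hd' o]
      exact card_pos.2 ⟨_, (SimpleGraph.mem_neighborFinset _ _ _).2 h'⟩
  have hdR : (1 : ℝ) ≤ d := Nat.one_le_cast.2 hdpos
  set κ := min h 1 with hκ
  have hκ0 : 0 < κ := lt_min hh one_pos
  have hκ1 : κ ≤ 1 := min_le_right _ _
  have hedge : ∀ A : Finset V, κ * A.card ≤ ∑ x ∈ A, ((G.neighborFinset x \ A).card : ℝ) := by
    intro A
    refine (mul_le_mul_of_nonneg_right (min_le_left h 1) (Nat.cast_nonneg _)).trans ((hiso A).trans ?_)
    refine le_trans (Nat.cast_le.2 ((Set.ncard_le_ncard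
      (t := ↑(A.biUnion fun x => G.neighborFinset x \ A)) ?_ (finite_toSet _)).trans
      ((Set.ncard_coe_finset _).le.trans card_biUnion_le))) (le_of_eq (Nat.cast_sum _ _))
    rintro v ⟨hv, a, ha, hav⟩
    exact mem_coe.2 (mem_biUnion.2 ⟨a, ha, mem_sdiff.2 ⟨(SimpleGraph.mem_neighborFinset _ _ _).2 hav, hv⟩⟩)
  set a := (d : ℝ) - Real.sqrt ((d : ℝ) ^ 2 - κ ^ 2) with ha
  have ha0 : 0 < a := by
    have : Real.sqrt ((d : ℝ) ^ 2 - κ ^ 2) < d :=
      (Real.sqrt_lt' (by linarith)).2 (sub_lt_self _ (by positivity))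
    linarith
  have hq : ∀ r r' : V, ∃ n, ∃ q : G.Walk r r', q.length = n := fun r r' => by
    obtain ⟨q⟩ := hc.preconnected r r'
    exact ⟨_, q, rfl⟩
  choose n q hn using hq
  set ℓ := (R ×ˢ R).sup fun x => n x.1 x.2 with hℓ
  have hℓ' : ∀ r ∈ R, ∀ r' ∈ R, ∃ q : G.Walk r r', q.length ≤ ℓ := fun r hr r' hr' =>
    ⟨q r r', (hn r r').le.trans (le_sup (f := fun x : V × V => n x.1 x.2) (mem_product.2 ⟨hr, hr'⟩ : (r, r') ∈ R ×ˢ R))⟩
  set L : ℝ := (d : ℝ) + 23 * e with hL
  have hL1 : 1 ≤ L := by rw [hL]; linarith [Nat.cast_nonneg (α := ℝ) e]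
  set B : ℝ := ((d : ℝ) + 4) ^ ℓ * ((ℓ : ℝ) + 1) with hB
  have hB1 : 1 ≤ B := one_le_mul_of_one_le_of_one_le (one_le_pow₀ (by linarith))
    (le_add_of_nonneg_left (Nat.cast_nonneg _))
  obtain ⟨D₀, hD₀⟩ := criterion (a := a) (K := L ^ 20) (B := B) ha0 (one_le_pow₀ hL1) hB1
  refine ⟨D₀ + 1, fun k hk => ?_⟩
  haveI : Countable V := countable_of_connected hc
  haveI : Countable U := countable_of_connected hHc
  haveI : Nonempty U := ⟨u₀⟩
  haveI : Nonempty V := ⟨o⟩
  have hkD : k ≤ d + k * e := le_add_left (Nat.le_mul_of_pos_right k he1)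
  refine hD₀ (G.boxProd (powGraph H (Fin k))) (d + k * e) (by omega) (prod_degree hd' he') ?_ ?_
    ⟨R ×ˢ {fun _ => u₀}, fun v => ?_⟩ (prod_comparable hd' he' htr hR hℓ') fun x => ?_
  · refine form_of_quad fun S u hu => (prod_quad_le hd' he' hκ0.le hedge S u hu).trans (le_of_eq ?_)
    rw [ha]; push_cast; ring
  · intro v j hj
    have h1 := (prod_walks hd' he' (k := k) (by omega) v (2 * j) (by omega) v).1
    rw [hdist, filter_eq_empty_iff.2 fun i _ => by simp, card_empty, pow_zero, mul_one, mul_pow,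
      pow_mul (Real.sqrt k), Real.sq_sqrt (Nat.cast_nonneg _)] at h1
    exact h1.trans (mul_le_mul (pow_le_pow_right₀ hL1 (by omega))
      (pow_le_pow_left₀ (Nat.cast_nonneg _) (Nat.cast_le.2 hkD) j) (by positivity) (by positivity))
  · obtain ⟨r, hr, φ, hφ⟩ := hR v.1
    obtain ⟨ψ, hψ⟩ := exists_shift htr φ r (fun _ => u₀) v.2
    rw [hφ] at hψ
    exact ⟨(r, fun _ => u₀), mem_product.2 ⟨hr, mem_singleton_self _⟩, ψ, hψ⟩
  · refine Set.Infinite.of_image Prod.fst ((orbit_infinite hc ⟨R, hR⟩ x.1).mono ?_)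
    rintro _ ⟨φ, rfl⟩
    obtain ⟨ψ, hψ⟩ := exists_shift htr φ x.1 x.2 x.2
    exact ⟨_, ⟨ψ, hψ⟩, rfl⟩

end Vale.Agent.P165.Sus
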